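import Vale.Agent.P057T.Pb.Defs

/-!
Row CLQ: a finer class keeps the mean.
-/

set_option linter.unusedSectionVars false

open Finset

namespace Vale.Agent.P057T.Pb

open Vale.Agent.P057T.Eq Vale.Agent.P057T.Cfg Vale.Agent.P057L

noncomputable section

namespace ClqP

section
variable {σ : Type} [DecidableEq σ] (L : Lw σ) (k : ℕ)

/-- the subclass with the residues `ρ` -/
def sub (ρ : L.U → Fin k) : Lw σ :=
  { L with r := fun x => if h : x ∈ L.U then L.r x + L.n * (ρ ⟨x, h⟩ : ℕ) else 0, n := L.n * k }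

variable {L k}

theorem sub_r (ρ : L.U → Fin k) {x : σ} (h : x ∈ L.U) :
    (sub L k ρ).r x = L.r x + L.n * (ρ ⟨x, h⟩ : ℕ) := dif_pos h

theorem in_sub {ρ : L.U → Fin k} {z : σ → ℤ} : (sub L k ρ).In z ↔
    (∀ x : L.U, (L.n : ℤ) * k ∣ z x - (L.r x + L.n * (ρ x : ℕ))) ∧ ∀ x, x ∉ L.U → z x = 0 := by
  refine ⟨fun h => ⟨fun x => ?_, fun x => (h x).2⟩, fun h x => ⟨fun hx => ?_, h.2 x⟩⟩
  · have := (h x).1 x.2
    rwa [sub_r ρ x.2, show ((sub L k ρ).n : ℤ) = L.n * k from Nat.cast_mul _ _] at this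
  · rw [sub_r ρ hx, show ((sub L k ρ).n : ℤ) = L.n * k from Nat.cast_mul _ _]
    exact h.1 ⟨x, hx⟩

theorem in_of {ρ : L.U → Fin k} {z : σ → ℤ} (h : (sub L k ρ).In z) : L.In z := fun x =>
  ⟨fun hx => by
    obtain ⟨m, hm⟩ := (in_sub.1 h).1 ⟨x, hx⟩
    exact ⟨k * m + (ρ ⟨x, hx⟩ : ℕ), by linear_combination hm⟩, (in_sub.1 h).2 x⟩

theorem ex_sub (hk : 1 ≤ k) {z : σ → ℤ} (h : L.In z) : ∃ ρ, (sub L k ρ).In z := by
  have h1 : ∀ x : L.U, ∃ j : Fin k, (L.n : ℤ) * k ∣ z x - (L.r x + L.n * (j : ℕ)) := fun x => by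
    obtain ⟨m, hm⟩ := (h x).1 x.2
    have k0 : (0 : ℤ) < k := by exact_mod_cast hk
    have a1 := Int.emod_nonneg m k0.ne'
    have a2 := Int.emod_lt_of_pos m k0
    refine ⟨⟨(m % k).toNat, by omega⟩, m / k, ?_⟩
    have a3 : (((m % k).toNat : ℕ) : ℤ) = m % k := Int.toNat_of_nonneg a1
    have a4 := Int.mul_ediv_add_emod m k
    show z x - (L.r x + L.n * (((m % k).toNat : ℕ) : ℤ)) = _
    rw [a3]
    linear_combination hm - (L.n : ℤ) * a4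
  choose ρ hρ using h1
  exact ⟨ρ, in_sub.2 ⟨hρ, fun x => (h x).2⟩⟩

theorem uniq (hn : 1 ≤ L.n) {ρ ρ' : L.U → Fin k} {z : σ → ℤ} (h : (sub L k ρ).In z)
    (h' : (sub L k ρ').In z) : ρ = ρ' := funext fun x => by
  have n0 : (L.n : ℤ) ≠ 0 := by exact_mod_cast (by omega : L.n ≠ 0)
  have h1 := dvd_sub ((in_sub.1 h).1 x) ((in_sub.1 h').1 x)
  rw [show z x - (L.r x + L.n * (ρ x : ℕ)) - (z x - (L.r x + L.n * (ρ' x : ℕ))) =
    (L.n : ℤ) * ((ρ' x : ℕ) - (ρ x : ℕ)) by ring, mul_dvd_mul_iff_left n0] at h1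
  have a1 := (ρ x).2
  have a2 := (ρ' x).2
  have := Int.eq_zero_of_abs_lt_dvd h1 (abs_lt.2 ⟨by omega, by omega⟩)
  exact Fin.ext (by omega)

end

variable {ι V : Type} [Fintype ι] [DecidableEq ι] [Fintype V] [DecidableEq V] {G : GT ι}
  {T : AT ι} {e : V → ℤ} {L : Lw (JI G.w V)} {k : ℕ}

theorem wt_sum (hn : 1 ≤ L.n) (hk : 1 ≤ k) (z : JI G.w V → ℤ) :
    wt G T e L z = ∑ ρ : L.U → Fin k, wt G T e (sub L k ρ) z := by
  by_cases h : L.In z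
  · obtain ⟨ρ, hρ⟩ := ex_sub hk h
    rw [sum_eq_single (f := fun ρ => wt G T e (sub L k ρ) z) ρ
      (fun ρ' _ hne => if_neg fun h' => hne (uniq hn h' hρ))
      fun h' => absurd (mem_univ ρ) h', wt, wt, if_pos h, if_pos hρ]
    rfl
  · rw [wt, if_neg h]
    exact (sum_eq_zero fun ρ _ => if_neg fun h' => h (in_of h')).symm

theorem wt_nn (z : JI G.w V → ℤ) : 0 ≤ wt G T e L z := by
  unfold wt
  split_ifs
  · exact (Real.exp_pos _).le
  · exact le_rfl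

theorem sm_F (h : Summable (wt G T e L)) {F : (JI G.w V → ℤ) → ℝ} (hF : ∀ z, |F z| ≤ 1) :
    Summable fun z => wt G T e L z * F z :=
  Summable.of_norm_bounded h fun z => by
    rw [Real.norm_eq_abs, abs_mul, abs_of_nonneg (wt_nn z)]
    exact mul_le_of_le_one_right (wt_nn z) (hF z)

theorem pos {m q Z : ℝ} (hZ : 0 < Z) (hq : 0 < q) (h : |m - q| ≤ Real.exp (-Z) * q) : 0 < m := by
  have h1 : Real.exp (-Z) < 1 := Real.exp_lt_one_iff.2 (neg_neg_of_pos hZ)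
  have h2 := (abs_le.1 h).1
  nlinarith

end ClqP

open ClqP in
theorem clq (hM : MASQ) : CLQ := by
  intro s
  obtain ⟨c, hc⟩ := hM s
  refine ⟨c, fun ι V _ _ _ _ G T M WW P Z a e L k F hH hV hL hk hn hF ha => ?_⟩
  have hZ : 0 < Z := lt_of_lt_of_le (by norm_num) (hH.P2.trans hH.PZ)
  have hs : ∀ ρ : L.U → Fin k, Lok G (sub L k ρ) Z := fun ρ =>
    ⟨hL.inv, hL.cl, Nat.mul_pos hL.n1 hk, hn⟩
  have h1 := fun ρ => hc ι V G T M WW P Z e _ hH hV (hs ρ)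
  obtain ⟨-, -, h2, h3⟩ := hc ι V G T M WW P Z e L hH hV hL
  by_contra hcon
  have h4 : ∀ ρ : L.U → Fin k, ∑' z, wt G T e (sub L k ρ) z * F z ≤
      a * ∑' z, wt G T e (sub L k ρ) z := fun ρ => by
    rw [← div_le_iff₀ (pos hZ (h1 ρ).2.2.1 (h1 ρ).2.2.2)]
    refine not_lt.1 fun h => hcon ⟨(sub L k ρ).r, fun x hx => ?_, h⟩
    rw [sub_r ρ hx, add_sub_cancel_left]
    exact dvd_mul_right _ _
  have h5 : ∑' z, wt G T e L z = ∑ ρ : L.U → Fin k, ∑' z, wt G T e (sub L k ρ) z := by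
    rw [← Summable.tsum_finsetSum fun ρ _ => (h1 ρ).2.1]
    exact tsum_congr (wt_sum hL.n1 hk)
  have h6 : ∑' z, wt G T e L z * F z =
      ∑ ρ : L.U → Fin k, ∑' z, wt G T e (sub L k ρ) z * F z := by
    rw [← Summable.tsum_finsetSum fun ρ _ => sm_F (h1 ρ).2.1 hF]
    exact tsum_congr fun z => by rw [wt_sum hL.n1 hk, sum_mul]
  rw [Ev, lt_div_iff₀ (pos hZ h2 h3), h5, h6, mul_sum] at ha
  exact absurd ha (not_lt.2 (sum_le_sum fun ρ _ => h4 ρ))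

end

end Vale.Agent.P057T.Pb
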