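import Vale.Agent.P057T.Cfg.Defs
import Vale.Agent.P057T.Cfg.Cp
import Vale.Agent.P057L.Defs

/-!
Gaussian laws on jets: a form, a centre, a class and a closed active set.
All row statements are `Prop`s at the end of the file.
-/

open MvPolynomial Finset
open scoped Real BigOperators

namespace Vale.Agent.P057T.Pb

open Vale.Agent.P057T.Eq Vale.Agent.P057T.Cfg Vale.Agent.P057L

noncomputable section

/-- form, centre, class, active set -/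
structure Lw (σ : Type) where
  N : Matrix σ σ ℝ
  c : σ → ℝ
  r : σ → ℤ
  n : ℕ
  U : Finset σ

variable {ι V V' : Type} [Fintype ι] [DecidableEq ι] [Fintype V] [DecidableEq V]
  [Fintype V'] [DecidableEq V']

def qf {σ : Type} [Fintype σ] (N : Matrix σ σ ℝ) (u : σ → ℝ) : ℝ := ∑ x, (N.mulVec u x) ^ 2

def Lw.q {σ : Type} [Fintype σ] (L : Lw σ) (u : σ → ℝ) : ℝ := ∑ x ∈ L.U, (L.N.mulVec u x) ^ 2

/-- the points of the class -/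
def Lw.In {σ : Type} (L : Lw σ) (z : σ → ℤ) : Prop :=
  ∀ x, (x ∈ L.U → (L.n : ℤ) ∣ z x - L.r x) ∧ (x ∉ L.U → z x = 0)

/-- the chart of a polynomial point, unit scales -/
def uj (G : GT ι) (T : AT ι) (e : V → ℤ) (z : JI G.w V → ℤ) : JI G.w V → ℝ :=
  uv (jet G V fun _ => 1) (jat G T e (fun _ => 1) univ) z

open Classical in
def wt (G : GT ι) (T : AT ι) (e : V → ℤ) (L : Lw (JI G.w V)) (z : JI G.w V → ℤ) : ℝ :=
  if L.In z then Real.exp (-π * L.q (uj G T e z - L.c)) else 0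

/-- expectation under the law -/
def Ev (G : GT ι) (T : AT ι) (e : V → ℤ) (L : Lw (JI G.w V)) (F : (JI G.w V → ℤ) → ℝ) : ℝ :=
  (∑' z, wt G T e L z * F z) / ∑' z, wt G T e L z

open Classical in
def ind (p : Prop) : ℝ := if p then 1 else 0

/-- the expected mass -/
def mq (G : GT ι) (L : Lw (JI G.w V)) : ℝ :=
  (jet G V fun _ => 1).dv L.U *
    |(L.N.submatrix (Subtype.val : L.U → JI G.w V) (Subtype.val : L.U → JI G.w V)).det|⁻¹ *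
    ((L.n : ℝ) ^ L.U.card)⁻¹

structure Lok (G : GT ι) (L : Lw (JI G.w V)) (Z : ℝ) : Prop where
  inv : ∃ N' : Matrix (JI G.w V) (JI G.w V) ℝ, Cp.Rc (jet G V fun _ => 1) L.N N' (Real.exp Z) ∧
    (∀ x, ∑ y, |N' x y| ≤ Real.exp Z) ∧ ∀ x y, (L.N x y ≠ 0 ∨ N' x y ≠ 0) → (x ∈ L.U ↔ y ∈ L.U)
  cl : ∀ x ∈ L.U, ∀ y : JI G.w V, y.1.2 ≤ x.1.2 → y ∈ L.U
  n1 : 1 ≤ L.n
  nZ : (L.n : ℝ) ≤ Real.exp Z

/-- the host: regular with reserve `c * Z`, jets over at most `M` vertices -/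
structure Hb (G : GT ι) (T : AT ι) (s M : ℕ) (WW : ℕ → ℝ) (P c Z : ℝ) : Prop where
  ok : G.Ok s
  ao : G.AOk T P
  un : T.U = univ
  sg : T.sg = fun _ => 1
  wd : G.Wd WW
  P2 : 2 ≤ P
  cd : (Fintype.card ι : ℝ) * (M + 1) ^ s ≤ P
  MP : (M : ℝ) ≤ P
  PZ : P ≤ Z
  rs : Rs G WW c (c * Z) s

/-- `N'` is the quotient of the form `N` along the substitution `S` -/
def Quo {w : ι → ℕ} (S : V → V' → ℤ) (N : Matrix (JI w V) (JI w V) ℝ)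
    (N' : Matrix (JI w V') (JI w V') ℝ) : Prop :=
  ∀ u' : JI w V' → ℝ, IsLeast {a : ℝ | ∃ u : JI w V → ℝ, Ph S u = u' ∧ a = qf N u} (qf N' u')

/-- left inverse up to the factor `n` -/
def Li (S : V → V' → ℤ) (n : ℕ) : Prop :=
  ∃ W : V' → V → ℤ, ∀ a b, ∑ v, W a v * S v b = if a = b then (n : ℤ) else 0

/-- graded diagonal form -/
def dgn {w : ι → ℕ} (t : V → ℝ) (θ : ℝ) : Matrix (JI w V) (JI w V) ℝ :=
  Matrix.diagonal fun x => θ⁻¹ * ∏ v, t v ^ x.1.2 v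

/-- the monomial of `x` contains a vertex of colour `b` -/
def Has {w : ι → ℕ} (k : V → Option Bool) (b : Bool) (x : JI w V) : Prop :=
  ∃ v, k v = some b ∧ x.1.2 v ≠ 0

/-- `F` does not see the coordinates of colour `b` -/
def Mis {w : ι → ℕ} {α : Type} (k : V → Option Bool) (b : Bool) (F : (JI w V → ℤ) → α) : Prop :=
  ∀ z z', (∀ x, ¬ Has k b x → z x = z' x) → F z = F z'

open Classical in
/-- the coordinates that are not mixed -/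
def Wk (w : ι → ℕ) (k : V → Option Bool) : Finset (JI w V) :=
  univ.filter fun x => ¬ (Has k false x ∧ Has k true x)

/-- delete the coordinates outside `W` -/
def Lw.cut {σ : Type} [DecidableEq σ] (L : Lw σ) (W : Finset σ) : Lw σ :=
  ⟨fun x y => if x ∉ W ∧ y ∈ W then 0 else L.N x y, L.c, L.r, L.n, W⟩

open Classical in
/-- the cell of the end of colour `true` -/
def cel (G : GT ι) (T : AT ι) (e : V → ℤ) (k : V → Option Bool)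
    (D : Matrix (JI G.w V) (JI G.w V) ℝ) (o : JI G.w V → ℝ) (z : JI G.w V → ℤ) : JI G.w V → ℤ :=
  fun x => if Has k true x ∧ ¬ Has k false x then ⌊D.mulVec (uj G T e z) x - o x⌋ else 0

/-! ### Rows -/

/-- naturality of the chart -/
def NAT : Prop := ∀ (s : ℕ) (ι V V' : Type) [Fintype ι] [DecidableEq ι] [Fintype V] [DecidableEq V]
  [Fintype V'] [DecidableEq V'] (G : GT ι) (T : AT ι) (e : V → ℤ) (S : V → V' → ℤ), G.Ok s →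
    (∀ z : JI G.w V → ℤ, uj G T (fun b => ∑ v, e v * S v b) (Ph S z) = Ph S (uj G T e z)) ∧
    (∀ (z z' : JI G.w V → ℤ) (x : JI G.w V), (∀ y : JI G.w V, y.1.2 ≤ x.1.2 → z y = z' y) →
      uj G T e z x = uj G T e z' x) ∧
    (∀ (R : Type) [CommRing R] (z z' : JI G.w V → R) (a : R),
      Ph S (z + z') = Ph S z + Ph S z' ∧ Ph S (a • z) = a • Ph S z) ∧
    (∀ (V'' : Type) [Fintype V''] [DecidableEq V''] (S' : V' → V'' → ℤ) (R : Type) [CommRing R]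
      (z : JI G.w V → R), Ph S' (Ph S z) = Ph (fun v b => ∑ a, S v a * S' a b) z) ∧
    ∀ (S' : V → V' → ℤ) (n : ℤ) (z z' : JI G.w V → ℤ), (∀ v b, n ∣ S v b - S' v b) →
      (∀ x, n ∣ z x - z' x) → ∀ y, n ∣ Ph S z y - Ph S' z' y

def MASQ : Prop := ∀ s : ℕ, ∃ c : ℕ, ∀ (ι V : Type) [Fintype ι] [DecidableEq ι] [Fintype V]
  [DecidableEq V] (G : GT ι) (T : AT ι) (M : ℕ) (WW : ℕ → ℝ) (P Z : ℝ) (e : V → ℤ)
  (L : Lw (JI G.w V)), Hb G T s M WW P (P ^ c) Z → Fintype.card V ≤ M → Lok G L Z →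
    (Fintype.card (JI G.w V) : ℝ) ≤ P ∧ Summable (wt G T e L) ∧ 0 < mq G L ∧
      |∑' z, wt G T e L z - mq G L| ≤ Real.exp (-Z) * mq G L

def TAIL : Prop := ∀ s : ℕ, ∃ c : ℕ, ∀ (ι V : Type) [Fintype ι] [DecidableEq ι] [Fintype V]
  [DecidableEq V] (G : GT ι) (T : AT ι) (M : ℕ) (WW : ℕ → ℝ) (P Z R : ℝ) (e : V → ℤ)
  (L : Lw (JI G.w V)), Hb G T s M WW P (P ^ c) Z → Fintype.card V ≤ M → Lok G L Z →
    Ev G T e L (fun z => ind (R ≤ L.q (uj G T e z - L.c))) ≤ Real.exp (P + 2 - R)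

/-- close forms and centres give close laws -/
def TVQ : Prop := ∀ s : ℕ, ∃ c : ℕ, ∀ (ι V : Type) [Fintype ι] [DecidableEq ι] [Fintype V]
  [DecidableEq V] (G : GT ι) (T : AT ι) (M : ℕ) (WW : ℕ → ℝ) (P Z R ε : ℝ) (e : V → ℤ)
  (L L' : Lw (JI G.w V)) (F : (JI G.w V → ℤ) → ℝ), Hb G T s M WW P (P ^ c) Z → Fintype.card V ≤ M →
    Lok G L Z → Lok G L' Z → L'.U = L.U → L'.r = L.r → L'.n = L.n → 0 ≤ ε → 1 ≤ R →
    ε * R ≤ 1 / 100 → (∀ u, |L.q u - L'.q u| ≤ ε * L.q u) → L.q (L.c - L'.c) ≤ ε ^ 2 →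
    (∀ z, |F z| ≤ 1) → |Ev G T e L F - Ev G T e L' F| ≤ 100 * ε * R + 8 * Real.exp (P + 2 - R / 4)

/-- a finer class keeps the mean -/
def CLQ : Prop := ∀ s : ℕ, ∃ c : ℕ, ∀ (ι V : Type) [Fintype ι] [DecidableEq ι] [Fintype V]
  [DecidableEq V] (G : GT ι) (T : AT ι) (M : ℕ) (WW : ℕ → ℝ) (P Z a : ℝ) (e : V → ℤ)
  (L : Lw (JI G.w V)) (k : ℕ) (F : (JI G.w V → ℤ) → ℝ), Hb G T s M WW P (P ^ c) Z →
    Fintype.card V ≤ M → Lok G L Z → 1 ≤ k → ((L.n * k : ℕ) : ℝ) ≤ Real.exp Z → (∀ z, |F z| ≤ 1) →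
    a < Ev G T e L F → ∃ r' : JI G.w V → ℤ, (∀ x ∈ L.U, (L.n : ℤ) ∣ r' x - L.r x) ∧
      a < Ev G T e { L with r := r', n := L.n * k } F

/-- a narrower window keeps the mean -/
def MIXE : Prop := ∀ s : ℕ, ∃ c : ℕ, ∀ (ι V : Type) [Fintype ι] [DecidableEq ι] [Fintype V]
  [DecidableEq V] (G : GT ι) (T : AT ι) (M : ℕ) (WW : ℕ → ℝ) (P Z R a : ℝ) (e : V → ℤ)
  (L L' : Lw (JI G.w V)) (F : (JI G.w V → ℤ) → ℝ), Hb G T s M WW P (P ^ c) Z → Fintype.card V ≤ M →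
    Lok G L Z → Lok G L' Z → L'.U = L.U → L'.r = L.r → L'.n = L.n → 1 ≤ R →
    (∀ u, 2 * L.q u ≤ L'.q u) → (∀ z, 0 ≤ F z ∧ F z ≤ 1) → a < Ev G T e L F →
    ∃ c' : JI G.w V → ℝ, L.q (c' - L.c) ≤ 4 * R ∧
      a - 4 * Real.exp (-Z) - 2 * Real.exp (P + 2 - R) < Ev G T e { L' with c := c' } F

/-- the quotient form exists -/
def QUO : Prop := ∀ s : ℕ, ∃ c : ℕ, ∀ (ι V V' : Type) [Fintype ι] [DecidableEq ι] [Fintype V]
  [DecidableEq V] [Fintype V'] [DecidableEq V'] (G : GT ι) (M n : ℕ) (P Z : ℝ) (L : Lw (JI G.w V))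
  (S : V → V' → ℤ), G.Ok s → 2 ≤ P → (Fintype.card ι : ℝ) * (M + 1) ^ s ≤ P → (M : ℝ) ≤ P → P ≤ Z →
    Fintype.card V ≤ M → Fintype.card V' ≤ M → Lok G L Z → L.U = univ → 1 ≤ n →
    (n : ℝ) ≤ Real.exp Z → Li S n → (∀ v b, |(S v b : ℝ)| ≤ Real.exp Z) →
    ∃ N', Quo S L.N N' ∧ ∀ c' r', Lok G ⟨N', c', r', L.n * n ^ s, univ⟩ (P ^ c * Z)

/-- the law of the jets along a frame, class by class -/
def PUSH : Prop := ∀ s : ℕ, ∃ c : ℕ, ∀ (ι V V' : Type) [Fintype ι] [DecidableEq ι] [Fintype V]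
  [DecidableEq V] [Fintype V'] [DecidableEq V'] (G : GT ι) (T : AT ι) (M n : ℕ) (WW : ℕ → ℝ)
  (P Z : ℝ) (e : V → ℤ) (L : Lw (JI G.w V)) (L' : Lw (JI G.w V')) (S : V → V' → ℤ)
  (F : (JI G.w V' → ℤ) → ℝ), Hb G T s M WW P (P ^ c) Z → 2 * Fintype.card V ≤ M →
    Fintype.card V' ≤ Fintype.card V → Lok G L Z → Lok G L' Z → L.U = univ → L'.U = univ → 1 ≤ n →
    Li S n → (∀ v b, |(S v b : ℝ)| ≤ Real.exp Z) → Quo S L.N L'.N → L'.c = Ph S L.c →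
    L.n * n ^ s ∣ L'.n → (∀ z, |F z| ≤ 1) →
    |Ev G T e L (fun β => ind (L'.In (Ph S β)) * F (Ph S β)) -
      Ev G T e L (fun β => ind (L'.In (Ph S β))) * Ev G T (fun b => ∑ v, e v * S v b) L' F| ≤
      Real.exp (-Z)

/-- wide coordinates are free -/
def WIDE : Prop := ∀ s : ℕ, ∃ c : ℕ, ∀ (ι V : Type) [Fintype ι] [DecidableEq ι] [Fintype V]
  [DecidableEq V] (G : GT ι) (T : AT ι) (M : ℕ) (WW : ℕ → ℝ) (P Z Z0 : ℝ) (e : V → ℤ)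
  (L : Lw (JI G.w V)) (U : Finset (JI G.w V)) (F : (JI G.w V → ℤ) → ℝ),
    Hb G T s M WW P (P ^ c) Z → Fintype.card V ≤ M → Lok G L Z → L.U = univ →
    Lok G { L with U := U } Z → P ≤ Z0 → Z0 ≤ Z → WW 0 ≤ Z0 → (L.n : ℝ) ≤ Real.exp Z0 →
    (∀ x, x ∉ U → ∑ y, |L.N x y| ≤ Real.exp (-(P ^ c * Z0))) → (∀ z, |F z| ≤ 1) →
    |Ev G T e L (fun z => F (Cp.res U z)) - Ev G T e { L with U := U } F| ≤ Real.exp (-Z0)

/-- mixed coordinates are invisible, triangular form -/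
def INV0 : Prop := ∀ s : ℕ, ∃ c : ℕ, ∀ (ι V : Type) [Fintype ι] [DecidableEq ι] [Fintype V]
  [DecidableEq V] (G : GT ι) (T : AT ι) (M : ℕ) (WW : ℕ → ℝ) (P Z : ℝ) (e : V → ℤ)
  (L : Lw (JI G.w V)) (k : V → Option Bool) (F F' : (JI G.w V → ℤ) → ℝ),
    Hb G T s M WW P (P ^ c) Z → Fintype.card V ≤ M → Lok G L Z → L.U = univ →
    Lok G (L.cut (Wk G.w k)) Z → (∀ x y, L.N x y ≠ 0 → ∀ b, Has k b y → Has k b x) →
    Mis k true F → Mis k false F' → (∀ z, |F z| ≤ 1) → (∀ z, |F' z| ≤ 1) →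
    |Ev G T e L (fun z => F z * F' z) - Ev G T e (L.cut (Wk G.w k)) (fun z => F z * F' z)| ≤
      Real.exp (-Z)

/-- mixed coordinates are invisible, any form -/
def INVQ : Prop := ∀ s : ℕ, ∃ c : ℕ, ∀ (ι V : Type) [Fintype ι] [DecidableEq ι] [Fintype V]
  [DecidableEq V] (G : GT ι) (T : AT ι) (M : ℕ) (WW : ℕ → ℝ) (P Z : ℝ) (e : V → ℤ)
  (L : Lw (JI G.w V)) (k : V → Option Bool), Hb G T s M WW P (P ^ c) Z → Fintype.card V ≤ M →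
    Lok G L Z → L.U = univ →
    ∃ N', Lok G ⟨N', L.c, L.r, L.n, Wk G.w k⟩ (P ^ c * Z) ∧
      (∀ u, IsLeast {a : ℝ | ∃ u' : JI G.w V → ℝ, (∀ x ∈ Wk G.w k, u' x = u x) ∧ a = qf L.N u'}
        (Lw.q ⟨N', L.c, L.r, L.n, Wk G.w k⟩ u)) ∧
      ∀ F F' : (JI G.w V → ℤ) → ℝ, Mis k true F → Mis k false F' → (∀ z, |F z| ≤ 1) →
        (∀ z, |F' z| ≤ 1) → |Ev G T e L (fun z => F z * F' z) -
          Ev G T e ⟨N', L.c, L.r, L.n, Wk G.w k⟩ (fun z => F z * F' z)| ≤ Real.exp (-Z)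

/-- common labels of the two ends are popular in the cell -/
def POPC : Prop := ∀ s : ℕ, ∃ c : ℕ, ∀ (ι V Λ : Type) [Fintype ι] [DecidableEq ι] [Fintype V]
  [DecidableEq V] [Fintype Λ] [DecidableEq Λ] (G : GT ι) (T : AT ι) (M : ℕ) (WW : ℕ → ℝ)
  (P Z B γ : ℝ) (e : V → ℤ) (L : Lw (JI G.w V)) (k : V → Option Bool)
  (D : Matrix (JI G.w V) (JI G.w V) ℝ) (o : JI G.w V → ℝ) (A' : (JI G.w V → ℤ) → Finset Λ),
    Hb G T s M WW P (P ^ c) Z → Fintype.card V ≤ M → Lok G L Z → L.U = univ →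
    (Fintype.card Λ : ℝ) ≤ Real.exp Z → 0 < γ → Mis k false A' → (∀ z, ((A' z).card : ℝ) ≤ B) →
    (∀ x y, D x y ≠ 0 → ¬ Has k false y) →
    (∀ δ : JI G.w V → ℝ, (∀ x, ¬ (Has k true x ∧ ¬ Has k false x) → δ x = 0) →
      (∀ x, Has k true x → ¬ Has k false x → |D.mulVec δ x| ≤ 1) → qf L.N δ ≤ (P * Z)⁻¹ ^ 4) →
    ∃ K : (JI G.w V → ℤ) → (JI G.w V → ℤ) → Finset Λ,
      (∀ z z' j, (∀ x, ¬ Has k false x → ¬ Has k true x → z x = z' x) → K z j = K z' j) ∧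
      (∀ z j, ((K z j).card : ℝ) * γ ≤ B) ∧
      ∀ A : (JI G.w V → ℤ) → Finset Λ, Mis k true A → (∀ z, ((A z).card : ℝ) ≤ B) →
        Ev G T e L (fun z => ind (∃ a ∈ A z, a ∈ A' z ∧ a ∉ K z (cel G T e k D o z))) ≤
          3 * B * γ + Real.exp (-Z)

/-- shapes of frames in one cell; `t`, `t'` are the scales of the vertices -/
def SHP : Prop := ∀ s : ℕ, ∃ c : ℕ, ∀ (ι V V' : Type) [Fintype ι] [DecidableEq ι] [Fintype V]
  [DecidableEq V] [Fintype V'] [DecidableEq V'] (w : ι → ℕ) (P Z η θ : ℝ) (t : V → ℝ) (t' : V' → ℝ)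
  (S S' : V → V' → ℤ) (W : V' → V → ℝ), (∀ a, w a ≤ s) → 2 ≤ P → 1 ≤ Z →
    (Fintype.card V : ℝ) ≤ P → (Fintype.card V' : ℝ) ≤ P → (Fintype.card (JI w V) : ℝ) ≤ P →
    (Fintype.card (JI w V') : ℝ) ≤ P → 0 < θ → (∀ v, 0 < t v) → (∀ b, 0 < t' b) → 0 ≤ η →
    η ≤ Real.exp (-(P ^ c * Z)) → (∀ v b, |(S' v b : ℝ)| * t' b ≤ Real.exp Z * t v) →
    (∀ v b, |((S v b - S' v b : ℤ) : ℝ)| * t' b ≤ η * t v) → (∀ a v, |W a v| ≤ Real.exp Z) →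
    (∀ a b, ∑ v, W a v * (S' v b * t' b / t v) = if a = b then 1 else 0) →
    (∀ N N' : Matrix (JI w V') (JI w V') ℝ, Quo S (dgn t θ) N → Quo S' (dgn t θ) N' → ∀ u,
      |qf N' u - qf N u| ≤ η * Real.exp (P ^ c * Z) * qf N' u ∧
      qf (dgn t' θ) u ≤ Real.exp (P ^ c * Z) * qf N' u ∧
      qf N' u ≤ Real.exp (P ^ c * Z) * qf (dgn t' θ) u) ∧
    ∀ (u : JI w V → ℝ) (R : ℝ), 0 ≤ R →
      (∀ x : JI w V, (∃ v, x.1.2 v ≠ 0 ∧ S v ≠ S' v) → |(dgn t θ).mulVec u x| ≤ R) →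
      ∀ y, |(dgn t' θ).mulVec (Ph S u - Ph S' u) y| ≤ η * Real.exp (P ^ c * Z) * R

end

end Vale.Agent.P057T.Pb
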