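import Vale.Agent.P057T.Pb.Defs
import Vale.Agent.P057T.Cfg.Count

/-! Row MASQ: the mass of a law on jets. -/

set_option linter.all false

open MvPolynomial Finset
open scoped Real

namespace Vale.Agent.P057T.Pb

open Vale.Agent.P057T.Eq Vale.Agent.P057T.Cfg

namespace MqA

lemma sub_mul {σ : Type} [Fintype σ] [DecidableEq σ] {A B : Matrix σ σ ℝ} (h : A * B = 1)
    (U : Finset σ) (hU : ∀ a b, A a b ≠ 0 → a ∈ U → b ∈ U) :
    (A.submatrix (Subtype.val : U → σ) (Subtype.val : U → σ)).det *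
      (B.submatrix (Subtype.val : U → σ) (Subtype.val : U → σ)).det = 1 := by
  rw [← Matrix.det_mul]
  have e : A.submatrix (Subtype.val : U → σ) (Subtype.val : U → σ) *
      B.submatrix (Subtype.val : U → σ) (Subtype.val : U → σ) = 1 := by
    ext x y
    have h1 : (A * B) x.1 y.1 = (1 : Matrix σ σ ℝ) x.1 y.1 := by rw [h]
    rw [Matrix.mul_apply] at h1 ⊢
    simp only [Matrix.submatrix_apply]
    rw [sum_coe_sort U (fun b => A x.1 b * B b y.1), sum_subset (subset_univ U) fun b _ hb => by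
      rw [not_not.1 fun h0 => hb (hU x.1 b h0 x.2), zero_mul], h1, Matrix.one_apply,
      Matrix.one_apply]
    simp only [Subtype.ext_iff]
  rw [e, Matrix.det_one]

variable {σ : Type} [Fintype σ] [DecidableEq σ]

/-- the points of the class -/
def pt (L : Lw σ) (z : Lat L.U) : σ → ℤ := Cp.res L.U L.r + (L.n : ℤ) • z.1

lemma pt_inj (L : Lw σ) (h : 1 ≤ L.n) : Function.Injective (pt L) := fun z z' e => by
  have h1 : (L.n : ℤ) • z.1 = (L.n : ℤ) • z'.1 := add_left_cancel e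
  refine Subtype.ext (funext fun x => ?_)
  have h2 := congrFun h1 x
  simp only [Pi.smul_apply, smul_eq_mul] at h2
  exact mul_left_cancel₀ (by exact_mod_cast (by omega : L.n ≠ 0)) h2

lemma in_pt (L : Lw σ) (z : Lat L.U) : L.In (pt L z) := fun x => by
  simp only [pt, Cp.res, Pi.add_apply, Pi.smul_apply, smul_eq_mul]
  refine ⟨fun hx => ?_, fun hx => ?_⟩
  · rw [if_pos hx, add_sub_cancel_left]
    exact dvd_mul_right _ _
  · rw [if_neg hx, z.2 x hx, mul_zero, add_zero]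

lemma of_in (L : Lw σ) {z : σ → ℤ} (h : L.In z) : z ∈ Set.range (pt L) := by
  refine ⟨⟨fun x => if x ∈ L.U then (z x - L.r x) / L.n else 0, fun x hx => if_neg hx⟩, ?_⟩
  funext x
  simp only [pt, Cp.res, Pi.add_apply, Pi.smul_apply, smul_eq_mul]
  by_cases hx : x ∈ L.U
  · rw [if_pos hx, if_pos hx, Int.mul_ediv_cancel' ((h x).1 hx)]
    ring
  · rw [if_neg hx, if_neg hx, (h x).2 hx]
    ring

lemma num (s : ℕ) {P Z M : ℝ} (hP : 2 ≤ P) (hZ : P ≤ Z) (hM : M ≤ P) :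
    Z + (2 * s + 4) * Z + (s + 2) * (Z + P ^ 2) + (s + 2) * 0 + s ^ 3 * M ≤
      P ^ (s ^ 3 + 4 * s + 9 + 1) * Z := by
  have h1 : ((s ^ 3 + 4 * s + 9 : ℕ) : ℝ) ≤ P ^ (s ^ 3 + 4 * s + 9) :=
    le_trans (by exact_mod_cast (Nat.lt_two_pow_self).le) (pow_le_pow_left₀ (by norm_num) hP _)
  push_cast at h1
  have s0 : (0 : ℝ) ≤ s := Nat.cast_nonneg s
  have h2 : Z ≤ P * Z := by nlinarith
  have h3 : P ^ 2 ≤ P * Z := by nlinarith
  have h4 : M ≤ P * Z := by nlinarith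
  have h5 : 0 ≤ P * Z := by nlinarith
  rw [pow_succ P (s ^ 3 + 4 * s + 9), mul_assoc]
  refine le_trans ?_ (mul_le_mul_of_nonneg_right h1 h5)
  have a1 := mul_le_mul_of_nonneg_left h2 (by positivity : (0 : ℝ) ≤ 3 * s + 7)
  have a2 := mul_le_mul_of_nonneg_left h3 (by positivity : (0 : ℝ) ≤ s + 2)
  have a3 := mul_le_mul_of_nonneg_left h4 (by positivity : (0 : ℝ) ≤ s ^ 3)
  linarith

end MqA

open MqA in
theorem masq (hJ : JOK) (hC : CFG) (hA : Cp.RCA) (hR : Cp.RCR) (h1 : COUNT1) : MASQ := by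
  intro s
  obtain ⟨c1, h1⟩ := h1 s
  refine ⟨c1 + (s ^ 3 + 4 * s + 9 + 1), ?_⟩
  intro ι V _ _ _ _ G T M WW P Z e L hH hV hL
  classical
  have P2 := hH.P2
  have PZ := hH.PZ
  have hcard : (Fintype.card (JI G.w V) : ℝ) ≤ P :=
    le_trans (by exact_mod_cast card_JI hH.ok.ws hV) hH.cd
  have s0 : (0 : ℝ) ≤ s := Nat.cast_nonneg s
  have c0 : 1 ≤ P ^ c1 := one_le_pow₀ (by linarith)
  obtain ⟨j1, -, j2, j3⟩ := hJ s ι V G (fun _ => 1) hH.ok fun _ => one_pos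
  have hU : UD G.w (fun ν : V →₀ ℕ => ∃ x ∈ L.U, ν ≤ x.1.2) = L.U := by
    ext y
    simp only [UD, mem_filter, mem_univ, true_and]
    exact ⟨fun ⟨x, hx, h⟩ => hL.cl x hx y h, fun hy => ⟨y, hy, le_rfl⟩⟩
  have ao := j3 T P e (fun ν : V →₀ ℕ => ∃ x ∈ L.U, ν ≤ x.1.2) hH.ao hH.un
    fun ν ν' ⟨x, hx, h⟩ h' => ⟨x, hx, h'.trans h⟩
  rw [hU] at ao
  obtain ⟨N', rc, -, hb⟩ := hL.inv
  obtain ⟨a1, -, a3, a4, a5, -⟩ := hA s _ _ L.N N' _ j1 rc
  have w0 := j2 WW 0 hH.wd le_rfl fun _ => by rw [Real.exp_zero]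
  have y1 : 1 ≤ Z + (2 * s + 4) * Z := by nlinarith
  have y2 : 1 ≤ Z + (2 * s + 4) * Z + (s + 2) * (Z + P ^ 2) := by nlinarith
  have r0 := hC s ι V G (fun _ => 1) WW (P ^ c1) _ 0 hH.ok hH.wd c0 y2 le_rfl
    (fun _ => ⟨one_pos, by rw [Real.exp_zero]⟩)
    (hH.rs.mono hH.wd.nn (by linarith) (by positivity)
      (pow_le_pow_right₀ (by linarith) (by omega))
      ((num s P2 PZ (le_trans (by exact_mod_cast hV) hH.MP)).trans (mul_le_mul_of_nonneg_right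
        (pow_le_pow_right₀ (by linarith) (by omega)) (by linarith))))
  have r1 := hR s _ _ L.N N' _ P (P ^ c1) _ Z ⟨hcard, P2, y1⟩ c0 (by linarith) rc
    ⟨j1, w0, fun g hg => (r0 g hg).1, fun g hg => (r0 g hg).2⟩
  obtain ⟨k1, k2⟩ := h1 _ _ (Cp.rcT (jat G T e (fun _ => 1) L.U) L.N) _ P Z Z 1 L.n a1 r1.wd
    ⟨hcard, P2, by linarith⟩ (a5 _ P ao hb) (by linarith) hL.n1 hL.nZ one_pos
    (Real.one_le_exp (by linarith)) (fun g hg => ⟨r1.big g hg, r1.small g hg⟩)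
    (Cp.res L.U L.r) (L.N.mulVec L.c)
  have ew : ∀ z : Lat L.U, ww (Cp.rc (jet G V fun _ => 1) L.N N')
      (Cp.rcT (jat G T e (fun _ => 1) L.U) L.N) 1 (L.N.mulVec L.c)
        (Cp.res L.U L.r + (L.n : ℤ) • z.1) = wt G T e L (pt L z) := by
    intro z
    rw [wt, if_pos (in_pt L z), ww, Lw.q]
    congr 2
    refine sum_congr rfl fun x _ => ?_
    have e1 : (Cp.rcT (jat G T e (fun _ => 1) L.U) L.N).sg x = 1 := congrFun hH.sg _
    rw [e1, one_mul, one_mul, Matrix.mulVec_sub, Pi.sub_apply, uv, a3, map_sum]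
    simp only [map_mul, eval_C]
    rfl
  have hs : ∀ z ∉ Set.range (pt L), wt G T e L z = 0 := fun z hz => by
    rw [wt, if_neg fun h => hz (of_in L h)]
  have d1 := sub_mul rc.inv L.U fun a b h ha => (hb a b (Or.inl h)).1 ha
  have d2 := sub_mul j1.AB L.U fun a b h ha => (ao.bk a b (Or.inl h)).1 ha
  have em : (Cp.rc (jet G V fun _ => 1) L.N N').mn (Cp.rcT (jat G T e (fun _ => 1) L.U) L.N).sg
      (Cp.rcT (jat G T e (fun _ => 1) L.U) L.N).U *
      ((1 * (L.n : ℝ)) ^ (Cp.rcT (jat G T e (fun _ => 1) L.U) L.N).U.card)⁻¹ = mq G L := by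
    show (Cp.rc (jet G V fun _ => 1) L.N N').dv L.U * (∏ a ∈ L.U, (T.sg a.1.1)⁻¹) *
      ((1 * (L.n : ℝ)) ^ L.U.card)⁻¹ = _
    rw [(a4 L.U ao.bk hb).2, hH.sg, mq, eq_inv_of_mul_eq_one_right d1, abs_inv]
    simp only [inv_one, prod_const_one, mul_one, one_mul]
    ring
  rw [em] at k2
  have k3 : Summable fun z : Lat L.U => wt G T e L (pt L z) := k1.congr ew
  have k4 : ∑' z : Lat L.U, wt G T e L (pt L z) = ∑' z, wt G T e L z :=
    (pt_inj L hL.n1).tsum_eq fun z hz => by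
      by_contra h
      exact hz (hs z h)
  refine ⟨hcard, ((pt_inj L hL.n1).summable_iff hs).1 k3, ?_, ?_⟩
  · have n0 : (0 : ℝ) < L.n := by exact_mod_cast hL.n1
    exact mul_pos (mul_pos (abs_pos.2 (right_ne_zero_of_mul_eq_one d2))
      (inv_pos.2 (abs_pos.2 (left_ne_zero_of_mul_eq_one d1)))) (by positivity)
  · rw [← k4, ← tsum_congr ew]
    exact k2

end Vale.Agent.P057T.Pb
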