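import Vale.Agent.P057T.Pb.Defs
import Vale.Agent.P057T.GauH52

/-! A narrower window keeps the mean. -/

set_option linter.all false

open MvPolynomial Finset Matrix MeasureTheory
open scoped Real BigOperators

namespace Vale.Agent.P057T.Pb

open Vale.Agent.P057T.Eq Vale.Agent.P057T.Cfg Vale.Agent.P057L

noncomputable section

namespace MixP

section gauss

open Vale.Agent.P057T.Poi

variable {κ : Type} [Fintype κ] [DecidableEq κ]

theorem qf_eq (n : Matrix κ κ ℝ) (v : κ → ℝ) : Pb.qf n v = Vale.Agent.P267.H775.qf n v := rfl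

theorem gq_eq (n : Matrix κ κ ℝ) (v : κ → ℝ) : gq n v = Real.exp (-π * Pb.qf n v) := rfl

theorem q_sub (n : Matrix κ κ ℝ) (x y : κ → ℝ) :
    Pb.qf n (x - y) = Pb.qf n x - 2 * bf n x y + Pb.qf n y := qf_sub n x y

theorem q_nn (n : Matrix κ κ ℝ) (x : κ → ℝ) : 0 ≤ Pb.qf n x := sum_nonneg fun _ _ => sq_nonneg _

theorem bf_dot (n : Matrix κ κ ℝ) (x y : κ → ℝ) : bf n x y = x ⬝ᵥ (nᵀ *ᵥ (n *ᵥ y)) := by
  rw [dotProduct_mulVec, vecMul_transpose]
  rfl

/-- the centre attached to `t` -/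
def cw (n n' : Matrix κ κ ℝ) (t : κ → ℝ) : κ → ℝ := t - shp n' (nᵀ *ᵥ (n *ᵥ t))

theorem bf_cw {n n' : Matrix κ κ ℝ} (hn' : n'.det ≠ 0) (v t : κ → ℝ) :
    bf n' v (cw n n' t) = bf n' t v - bf n t v := by
  have h1 : bf n' v (cw n n' t) = bf n' v t - bf n' v (shp n' (nᵀ *ᵥ (n *ᵥ t))) := by
    simp only [cw, bf, mulVec_sub, Pi.sub_apply, mul_sub, sum_sub_distrib]
  rw [h1, bf_comm n' v (shp _ _), bf_shp hn', bf_comm n' v t, bf_comm n t v, bf_dot n v t,
    dotProduct_comm]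
  rfl

/-- the difference of the forms -/
def df (n n' : Matrix κ κ ℝ) (t : κ → ℝ) : ℝ := Pb.qf n' t - Pb.qf n t

theorem key {n n' : Matrix κ κ ℝ} (hn' : n'.det ≠ 0) (v t : κ → ℝ) :
    Real.exp (-π * (df n n' t - Pb.qf n' (cw n n' t))) * gq n' (v - cw n n' t) =
      gq n v * Real.exp (-π * df n n' (t - v)) := by
  rw [gq_eq, gq_eq, ← Real.exp_add, ← Real.exp_add, q_sub, bf_cw hn', df, df, q_sub, q_sub]
  congr 1
  ring

theorem cont_df (n n' : Matrix κ κ ℝ) : Continuous fun t => Real.exp (-π * df n n' t) := by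
  have h1 : Continuous (Pb.qf n) := Vale.Agent.P267.H775.continuous_qf n
  have h2 : Continuous (Pb.qf n') := Vale.Agent.P267.H775.continuous_qf n'
  unfold df
  fun_prop

theorem int_df {n n' : Matrix κ κ ℝ} (hn : n.det ≠ 0) (h2 : ∀ v, 2 * Pb.qf n v ≤ Pb.qf n' v) :
    Integrable fun t => Real.exp (-π * df n n' t) := by
  refine (integrable_gq hn).mono' (cont_df n n').aestronglyMeasurable (ae_of_all _ fun t => ?_)
  rw [Real.norm_eq_abs, abs_of_pos (Real.exp_pos _), gq_eq, Real.exp_le_exp, df]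
  have := h2 t
  nlinarith [Real.pi_pos]

theorem mix {n n' : Matrix κ κ ℝ} (hn : n.det ≠ 0) (hn' : n'.det ≠ 0)
    (h2 : ∀ v, 2 * Pb.qf n v ≤ Pb.qf n' v) {Z : Type} [Countable Z] (v : Z → κ → ℝ) (g : Z → ℝ)
    (hs : Summable fun z => gq n (v z) * |g z|) (h : ∀ w, ∑' z, gq n' (v z - w) * g z ≤ 0) :
    ∑' z, gq n (v z) * g z ≤ 0 := by
  have hi := int_df hn h2
  set K : ℝ := ∫ t, Real.exp (-π * df n n' t) with hK
  have hK0 : 0 < K := by
    rw [hK, integral_pos_iff_support_of_nonneg (fun t => (Real.exp_pos _).le) hi]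
    have : Function.support (fun t : κ → ℝ => Real.exp (-π * df n n' t)) = Set.univ := by
      ext t
      simp [(Real.exp_pos _).ne']
    rw [this]
    exact isOpen_univ.measure_pos _ Set.univ_nonempty
  let F : Z → (κ → ℝ) → ℝ := fun z t => (gq n (v z) * g z) * Real.exp (-π * df n n' (t - v z))
  have f1 : ∀ z, Integrable (F z) := fun z => (hi.comp_sub_right (v z)).const_mul _
  have f0 : ∀ z, ∫ t, Real.exp (-π * df n n' (t - v z)) = K := fun z =>
    integral_sub_right_eq_self (fun t => Real.exp (-π * df n n' t)) (v z)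
  have f2 : ∀ z, ∫ t, F z t = (gq n (v z) * g z) * K := fun z => by
    simp only [F]
    rw [integral_const_mul, f0]
  have f3 : ∀ z, ∫ t, ‖F z t‖ = (gq n (v z) * |g z|) * K := fun z => by
    have e : (fun t => ‖F z t‖) =
        fun t => (gq n (v z) * |g z|) * Real.exp (-π * df n n' (t - v z)) := by
      funext t
      simp only [F]
      rw [Real.norm_eq_abs, abs_mul, abs_mul, abs_of_pos (gq_pos _ _), abs_of_pos (Real.exp_pos _)]
    rw [e, integral_const_mul, f0]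
  have f4 : Summable fun z => ∫ t, ‖F z t‖ := by
    simp only [f3]
    exact hs.mul_right K
  have f5 := integral_tsum_of_summable_integral_norm f1 f4
  simp only [f2] at f5
  rw [tsum_mul_right] at f5
  have f6 : ∫ t, ∑' z, F z t ≤ 0 := by
    refine integral_nonpos fun t => ?_
    have e : ∀ z, F z t = Real.exp (-π * (df n n' t - Pb.qf n' (cw n n' t))) *
        (gq n' (v z - cw n n' t) * g z) := fun z => by
      simp only [F]
      rw [← mul_assoc, key hn']
      ring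
    simp only [e]
    rw [tsum_mul_left]
    exact mul_nonpos_of_nonneg_of_nonpos (Real.exp_pos _).le (h _)
  rw [← f5] at f6
  by_contra hc
  exact absurd (mul_pos (not_le.1 hc) hK0) (not_lt.2 f6)

theorem q_far (n : Matrix κ κ ℝ) (x w : κ → ℝ) : Pb.qf n w ≤ 2 * Pb.qf n x + 2 * Pb.qf n (x - w) := by
  have h := qf_add_le n x (-(x - w))
  rw [qf_neg] at h
  have e : x + -(x - w) = w := by abel
  rwa [e] at h

end gauss

variable {ι V : Type} [Fintype ι] [DecidableEq ι] [Fintype V] [DecidableEq V]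

theorem hb_mono {G : GT ι} {T : AT ι} {s M : ℕ} {WW : ℕ → ℝ} {P Z : ℝ} {c c' : ℕ} (hc : c ≤ c')
    (h : Hb G T s M WW P (P ^ c') Z) : Hb G T s M WW P (P ^ c) Z := by
  refine ⟨h.ok, h.ao, h.un, h.sg, h.wd, h.P2, h.cd, h.MP, h.PZ, fun g hg => ?_⟩
  have hP := h.P2
  have hZ := h.PZ
  have p0 : 0 < P ^ c := by positivity
  have p1 : P ^ c ≤ P ^ c' := pow_le_pow_right₀ (by linarith) hc
  have p2 : 0 < P ^ c * Z := mul_pos p0 (by linarith)
  have p3 : P ^ c * Z ≤ P ^ c' * Z := mul_le_mul_of_nonneg_right p1 (by linarith)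
  have hW := h.wd.nn
  have h2 : ∀ g, 0 < P ^ c * (P ^ c * Z + WW g) := fun g => mul_pos p0 (by linarith [hW g])
  have h1 : ∀ g, P ^ c * (P ^ c * Z + WW g) ≤ P ^ c' * (P ^ c' * Z + WW g) := fun g =>
    mul_le_mul p1 (by linarith) (by linarith [hW g]) (by linarith)
  refine ⟨fun e k I a1 a2 a3 a4 a5 => (h.rs g hg).1 e k I a1 a2 a3 a4 ?_, fun j hj hjg => ?_⟩
  · obtain ⟨b, b1, b2⟩ := a5
    exact ⟨b, b1, b2.trans (Real.exp_le_exp.2 (h1 g))⟩
  · obtain ⟨v, v1, v2, v3⟩ := (h.rs g hg).2 j hj hjg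
    refine ⟨v, v1, v2, fun a => (v3 a).trans ?_⟩
    exact mul_le_mul (Real.exp_le_exp.2 (by linarith [h1 (g + 1)])) (inv_anti₀ (h2 g) (h1 g))
      (inv_nonneg.2 ((h2 g).le.trans (h1 g))) (Real.exp_pos _).le

/-- the form on the active set -/
def sm {σ : Type} (N : Matrix σ σ ℝ) (U : Finset σ) : Matrix U U ℝ :=
  N.submatrix (Subtype.val : U → σ) (Subtype.val : U → σ)

/-- extension by zero -/
def ex {σ : Type} [DecidableEq σ] (U : Finset σ) (w : U → ℝ) : σ → ℝ :=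
  fun x => if h : x ∈ U then w ⟨x, h⟩ else 0

theorem ex_val {σ : Type} [DecidableEq σ] (U : Finset σ) (w : U → ℝ) (x : U) :
    ex U w x.1 = w x := dif_pos x.2

theorem q_sm {σ : Type} [Fintype σ] [DecidableEq σ] (L : Lw σ)
    (hb : ∀ x y, L.N x y ≠ 0 → (x ∈ L.U ↔ y ∈ L.U)) (u : σ → ℝ) :
    L.q u = Pb.qf (sm L.N L.U) fun x => u x.1 := by
  rw [Lw.q, Pb.qf, ← sum_coe_sort]
  refine sum_congr rfl fun x _ => ?_
  congr 1
  simp only [mulVec, dotProduct, sm, submatrix_apply]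
  rw [sum_coe_sort L.U fun y => L.N x.1 y * u y]
  refine (sum_subset (subset_univ _) fun y _ hy => ?_).symm
  by_cases h : L.N x.1 y = 0
  · rw [h, zero_mul]
  · exact absurd ((hb _ _ h).1 x.2) hy

theorem lok_blk {G : GT ι} {L : Lw (JI G.w V)} {Z : ℝ} (h : Lok G L Z) :
    ∀ x y, L.N x y ≠ 0 → (x ∈ L.U ↔ y ∈ L.U) := by
  obtain ⟨N', -, -, h3⟩ := h.inv
  exact fun x y hxy => h3 x y (Or.inl hxy)

theorem det_ne {G : GT ι} {L : Lw (JI G.w V)} (h : 0 < mq G L) : (sm L.N L.U).det ≠ 0 := by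
  intro h0
  unfold mq at h
  unfold sm at h0
  rw [h0] at h
  simp at h

theorem wt_nn (G : GT ι) (T : AT ι) (e : V → ℤ) (L : Lw (JI G.w V)) (z : JI G.w V → ℤ) :
    0 ≤ wt G T e L z := by
  unfold wt
  split_ifs
  · exact (Real.exp_pos _).le
  · exact le_rfl

theorem ind_nn (p : Prop) : 0 ≤ ind p := by
  unfold ind
  split_ifs <;> norm_num

theorem ind_le (p : Prop) : ind p ≤ 1 := by
  unfold ind
  split_ifs <;> norm_num

theorem wt_eq (G : GT ι) (T : AT ι) (e : V → ℤ) (L : Lw (JI G.w V))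
    (hb : ∀ x y, L.N x y ≠ 0 → (x ∈ L.U ↔ y ∈ L.U)) (z : JI G.w V → ℤ) :
    wt G T e L z = Poi.gq (sm L.N L.U) (fun x => (uj G T e z - L.c) x.1) * ind (L.In z) := by
  unfold wt ind
  split_ifs
  · rw [mul_one, q_sm L hb, gq_eq]
  · rw [mul_zero]

section ev

variable {G : GT ι} {T : AT ι} {e : V → ℤ} {L : Lw (JI G.w V)}

theorem sm_bd (hs : Summable (wt G T e L)) {F : (JI G.w V → ℤ) → ℝ} {B : ℝ} (hF : ∀ z, |F z| ≤ B) :
    Summable fun z => wt G T e L z * F z := by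
  refine Summable.of_norm_bounded (hs.mul_right B) fun z => ?_
  rw [Real.norm_eq_abs, abs_mul, abs_of_nonneg (wt_nn _ _ _ _ _)]
  exact mul_le_mul_of_nonneg_left (hF z) (wt_nn _ _ _ _ _)

theorem ev_mono (hs : Summable (wt G T e L)) {F F' : (JI G.w V → ℤ) → ℝ} {B : ℝ}
    (hF : ∀ z, |F z| ≤ B) (hF' : ∀ z, |F' z| ≤ B) (h : ∀ z, F z ≤ F' z) :
    Ev G T e L F ≤ Ev G T e L F' :=
  div_le_div_of_nonneg_right ((sm_bd hs hF).tsum_le_tsum
    (fun z => mul_le_mul_of_nonneg_left (h z) (wt_nn _ _ _ _ _)) (sm_bd hs hF'))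
    (tsum_nonneg fun z => wt_nn _ _ _ _ _)

theorem ev_nn {F : (JI G.w V → ℤ) → ℝ} (h : ∀ z, 0 ≤ F z) : 0 ≤ Ev G T e L F :=
  div_nonneg (tsum_nonneg fun z => mul_nonneg (wt_nn _ _ _ _ _) (h z))
    (tsum_nonneg fun z => wt_nn _ _ _ _ _)

theorem ev_add (hs : Summable (wt G T e L)) {F F' : (JI G.w V → ℤ) → ℝ} {B : ℝ}
    (hF : ∀ z, |F z| ≤ B) (hF' : ∀ z, |F' z| ≤ B) :
    Ev G T e L (fun z => F z + F' z) = Ev G T e L F + Ev G T e L F' := by
  unfold Ev
  rw [← add_div, ← (sm_bd hs hF).tsum_add (sm_bd hs hF')]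
  simp only [mul_add]

theorem ev_le_iff (hs : Summable (wt G T e L)) (h0 : 0 < ∑' z, wt G T e L z)
    {F : (JI G.w V → ℤ) → ℝ} {B : ℝ} (hF : ∀ z, |F z| ≤ B) (a : ℝ) :
    Ev G T e L F ≤ a ↔ ∑' z, wt G T e L z * (F z - a) ≤ 0 := by
  unfold Ev
  simp only [mul_sub]
  rw [(sm_bd hs hF).tsum_sub (hs.mul_right a), tsum_mul_right, div_le_iff₀ h0, sub_nonpos, mul_comm]

theorem mass_pos {Z : ℝ} (hZ : 0 < Z) (h0 : 0 < mq G L)
    (h : |∑' z, wt G T e L z - mq G L| ≤ Real.exp (-Z) * mq G L) : 0 < ∑' z, wt G T e L z := by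
  have h1 : Real.exp (-Z) < 1 := Real.exp_lt_one_iff.2 (by linarith)
  have h2 := (abs_le.1 h).1
  nlinarith

end ev

end MixP

open MixP in
theorem mixe (hM : MASQ) (hT : TAIL) : MIXE := by
  intro s
  obtain ⟨c1, k1⟩ := hM s
  obtain ⟨c2, k2⟩ := hT s
  refine ⟨c1 + c2, ?_⟩
  intro ι V _ _ _ _ G T M WW P Z R a e L L' F hH hV hL hL' eU er en hR h2 hF ha
  obtain ⟨N', c0, r', n', U'⟩ := L'
  simp only at eU er en
  subst eU er en
  have H1 := hb_mono (Nat.le_add_right c1 c2) hH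
  have H2 := hb_mono (Nat.le_add_left c2 c1) hH
  have hZ : 0 < Z := by linarith [hH.P2, hH.PZ]
  let Lc : (JI G.w V → ℝ) → Lw (JI G.w V) := fun c' => ⟨N', c', L.r, L.n, L.U⟩
  have okc : ∀ c', Lok G (Lc c') Z := fun c' => ⟨hL'.inv, hL'.cl, hL'.n1, hL'.nZ⟩
  obtain ⟨-, s0, m0, w0⟩ := k1 ι V G T M WW P Z e L H1 hV hL
  have sc : ∀ c', Summable (wt G T e (Lc c')) := fun c' =>
    (k1 ι V G T M WW P Z e (Lc c') H1 hV (okc c')).2.1
  have mc : ∀ c', 0 < mq G (Lc c') := fun c' =>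
    (k1 ι V G T M WW P Z e (Lc c') H1 hV (okc c')).2.2.1
  have pc : ∀ c', 0 < ∑' z, wt G T e (Lc c') z := fun c' =>
    mass_pos hZ (mc c') (k1 ι V G T M WW P Z e (Lc c') H1 hV (okc c')).2.2.2
  have p0 := mass_pos hZ m0 w0
  have t0 := k2 ι V G T M WW P Z R e L H2 hV hL
  have tc := fun c' => k2 ι V G T M WW P Z R e (Lc c') H2 hV (okc c')
  have bL := lok_blk hL
  have bc := fun c' => lok_blk (okc c')
  set τ : ℝ := Real.exp (P + 2 - R) with hτ
  have τ0 : 0 < τ := Real.exp_pos _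
  have z0 : 0 < Real.exp (-Z) := Real.exp_pos _
  let F1 : (JI G.w V → ℤ) → ℝ := fun z => F z * ind (¬ R ≤ L.q (uj G T e z - L.c))
  have aF : ∀ z, |F z| ≤ 1 := fun z => abs_le.2 ⟨by linarith [(hF z).1], (hF z).2⟩
  have aI : ∀ p, |ind p| ≤ 1 := fun p => abs_le.2 ⟨by linarith [ind_nn p], ind_le p⟩
  have aF1 : ∀ z, |F1 z| ≤ 1 := fun z => by
    simp only [F1]
    rw [abs_mul]
    exact mul_le_one₀ (aF z) (abs_nonneg _) (aI _)
  have lF1 : ∀ z, F1 z ≤ F z := fun z => mul_le_of_le_one_right (hF z).1 (ind_le _)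
  have a1 : a - τ < Ev G T e L F1 := by
    have e1 : Ev G T e L F ≤
        Ev G T e L (fun z => F1 z + ind (R ≤ L.q (uj G T e z - L.c))) := by
      refine ev_mono (B := 2) s0 (fun z => (aF z).trans one_le_two) (fun z => ?_) fun z => ?_
      · exact (abs_add_le _ _).trans (by linarith [aF1 z, aI (R ≤ L.q (uj G T e z - L.c))])
      · simp only [F1, ind]
        split_ifs
        · linarith [(hF z).2]
        · linarith
    rw [ev_add s0 aF1 fun z => aI _] at e1
    linarith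
  have a2 : ∃ w : L.U → ℝ, a - τ < Ev G T e (Lc (L.c + ex L.U w)) F1 := by
    by_contra hc
    push Not at hc
    refine absurd a1 (not_lt.2 ((ev_le_iff s0 p0 aF1 _).2 ?_))
    simp only [wt_eq G T e L bL, mul_assoc]
    refine mix (n' := sm N' L.U) (det_ne m0) (det_ne (mc L.c)) (fun v => ?_) _ _ ?_ fun w => ?_
    · have h3 := h2 (ex L.U v)
      rw [q_sm L bL, q_sm _ (bc c0)] at h3
      simp only [ex_val] at h3
      exact h3
    · have h3 := sm_bd s0 (F := fun z => |F1 z - (a - τ)|) (B := 1 + |a - τ|) fun z => by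
        rw [abs_abs]
        exact (abs_sub _ _).trans (by linarith [aF1 z])
      refine h3.congr fun z => ?_
      rw [wt_eq G T e L bL, mul_assoc, abs_mul, abs_of_nonneg (ind_nn _)]
    · have h3 := (ev_le_iff (sc _) (pc _) aF1 _).1 (hc w)
      simp only [wt_eq G T e _ (bc _), mul_assoc] at h3
      refine le_of_eq_of_le (tsum_congr fun z => ?_) h3
      congr 2
      funext x
      simp only [Lc, Pi.sub_apply, Pi.add_apply, ex_val]
      ring
  obtain ⟨w, hw⟩ := a2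
  by_cases hq : L.q (ex L.U w) ≤ 4 * R
  · refine ⟨L.c + ex L.U w, by rwa [add_sub_cancel_left], ?_⟩
    have := ev_mono (sc (L.c + ex L.U w)) aF1 aF lF1
    show _ < Ev G T e (Lc (L.c + ex L.U w)) F
    linarith
  · refine ⟨L.c, ?_, ?_⟩
    · rw [sub_self, q_sm L bL]
      have : Pb.qf (sm L.N L.U) (fun x => (0 : JI G.w V → ℝ) x.1) = 0 := Poi.qf_zero _
      rw [this]
      linarith
    · have b1 : Ev G T e (Lc (L.c + ex L.U w)) F1 ≤ τ := by
        refine le_trans (ev_mono (sc _) aF1 (fun z => aI _) fun z => ?_) (tc _)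
        by_cases hz : R ≤ L.q (uj G T e z - L.c)
        · have : F1 z = 0 := by
            simp only [F1, ind]
            rw [if_neg (not_not.2 hz), mul_zero]
          rw [this]
          exact ind_nn _
        · have b2 := q_far (sm L.N L.U) (fun x => (uj G T e z - L.c) x.1) fun x => ex L.U w x.1
          have b3 := h2 (uj G T e z - (L.c + ex L.U w))
          rw [q_sm L bL] at hq hz b3
          have b4 : (fun x : L.U => (uj G T e z - (L.c + ex L.U w)) x.1) =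
              (fun x : L.U => (uj G T e z - L.c) x.1) - fun x : L.U => ex L.U w x.1 := by
            funext x
            simp only [Pi.sub_apply, Pi.add_apply]
            ring
          rw [b4] at b3
          have b5 : R ≤ (Lc (L.c + ex L.U w)).q (uj G T e z - (Lc (L.c + ex L.U w)).c) := by
            refine le_trans ?_ b3
            linarith
          have : ind (R ≤ (Lc (L.c + ex L.U w)).q (uj G T e z - (Lc (L.c + ex L.U w)).c)) = 1 :=
            if_pos b5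
          rw [this]
          exact (le_abs_self _).trans (aF1 z)
      have b6 : 0 ≤ Ev G T e (Lc L.c) F := ev_nn fun z => (hF z).1
      show _ < Ev G T e (Lc L.c) F
      linarith

end

end Vale.Agent.P057T.Pb
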