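import Vale.Agent.P057T.Pb.Defs
import Vale.Agent.P057T.Cfg.Bas
import Vale.Agent.P057T.Cfg.Jok

/-! Row NAT: naturality of the chart of the jets. -/

open MvPolynomial Finset
open scoped Real BigOperators

namespace Vale.Agent.P057T.Pb

open Vale.Agent.P057T.Eq Vale.Agent.P057T.Cfg

noncomputable section

set_option linter.unusedSectionVars false

namespace NatP

variable {ι V V' V'' : Type} [Fintype ι] [DecidableEq ι] [Fintype V] [DecidableEq V]
  [Fintype V'] [DecidableEq V'] [Fintype V''] [DecidableEq V'']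

theorem sb_le (R : Type) [CommRing R] (S : V → V' → ℤ) (e : V → ℤ) :
    sb R S (le R e) = le R fun b => ∑ v, e v * S v b := by
  simp only [sb, le, map_sum, map_mul, aeval_C, aeval_X, algebraMap_eq, Int.cast_sum, Int.cast_mul,
    mul_sum, sum_mul]
  rw [sum_comm]
  exact sum_congr rfl fun b _ => sum_congr rfl fun v _ => (mul_assoc _ _ _).symm

theorem sb_sb (R : Type) [CommRing R] (S : V → V' → ℤ) (S' : V' → V'' → ℤ) (Q : MvPolynomial V R) :
    sb R S' (sb R S Q) = sb R (fun v b => ∑ a, S v a * S' a b) Q := by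
  have : (sb R S').comp (sb R S) = sb R fun v b => ∑ a, S v a * S' a b := by
    refine algHom_ext fun v => ?_
    have h1 : sb R S (X v) = le R (S v) := aeval_X _ _
    have h2 : sb R (fun v b => ∑ a, S v a * S' a b) (X v) =
        le R fun b => ∑ a, S v a * S' a b := aeval_X _ _
    rw [AlgHom.comp_apply, h1, h2]
    exact sb_le R S' (S v)
  exact congrArg (fun φ => φ Q) this

theorem uj_eq (hJ : JOK) {s : ℕ} {G : GT ι} (hG : G.Ok s) (T : AT ι) (e : V → ℤ)
    (z : JI G.w V → ℤ) : uj G T e z = fun x => coeff x.1.2 (tp G T e (cz z) x.1.1) := by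
  funext x
  rw [uj, uv_jet G T e _ _ (hJ s ι V G (fun _ => 1) hG fun _ => one_pos).2.1, one_mul]

end NatP

open NatP in
theorem nat (hJ : JOK) : NAT := by
  intro s ι V V' _ _ _ _ _ _ G T e S hG
  refine ⟨fun z => ?_, fun z z' x h => ?_, fun R _ z z' a => ⟨Ph_add S z z', Ph_smul S a z⟩,
    fun V'' _ _ S' R _ z => ?_, fun S' n z z' hS hz y => ?_⟩
  · rw [uj_eq hJ hG, uj_eq hJ hG]
    funext y
    rw [cz_Ph, sb_tp G T (sb_le ℝ S e), Ph, pl_coeff (tp_hom hG T e (cz z))]
  · have h1 : ∀ y ∈ ((jet G V fun _ => 1).ch (jat G T e (fun _ => 1) univ) x).vars,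
        y.1.2 ≤ x.1.2 := by
      intro y hy
      rcases mem_union.1 (vars_add_subset _ _ hy) with h2 | h2
      · rw [(hJ s ι V G (fun _ => 1) hG fun _ => one_pos).2.1] at h2
        exact (Jok.vars_jet G.w (fun _ => True) (fun _ _ => trivial) x.1.2 y
          (Jok.vars_Cmul _ _ h2)).2
      · exact (Jok.vars_hg G T e (fun _ => True) x.1.1 (fun _ _ => trivial) x.1.2 y
          (Jok.vars_Cmul _ _ h2)).2
    exact eval₂Hom_congr' rfl (fun y hy _ => congrArg (Int.cast : ℤ → ℝ) (h y (h1 y hy))) rfl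
  · funext y
    rw [Ph, pl_Ph, sb_sb, Ph]
  · have key : ∀ a b : ℤ, n ∣ a - b ↔ (b : ZMod n.natAbs) = a := fun a b => by
      rw [ZMod.intCast_eq_intCast_iff_dvd_sub, Int.natAbs_dvd]
    have h1 : sb (ZMod n.natAbs) S' = sb (ZMod n.natAbs) S := by
      unfold sb le
      simp only [fun v b => (key _ _).1 (hS v b)]
    have h2 := Ph_map (Int.castRingHom (ZMod n.natAbs)) S z y
    have h3 := Ph_map (Int.castRingHom (ZMod n.natAbs)) S' z' y
    simp only [eq_intCast] at h2 h3
    rw [key, h2, h3, funext fun x => (key _ _).1 (hz x), Ph, Ph, h1]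

theorem nat0 : NAT := nat jok

end

end Vale.Agent.P057T.Pb
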