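import Vale.Agent.P057T.Pb.Defs

/-! Sub-rows of `PUSH`. -/

open MvPolynomial Finset
open scoped Real BigOperators

namespace Vale.Agent.P057T.Pb

open Vale.Agent.P057T.Eq Vale.Agent.P057T.Cfg

/-- a frame extends to a square non singular frame -/
def EXT : Prop := ∀ (V V' : Type) [Fintype V] [DecidableEq V] [Fintype V'] [DecidableEq V']
  (S : V → V' → ℤ) (n : ℕ) (X : ℝ), 1 ≤ n → Li S n → 1 ≤ X → (∀ v b, |(S v b : ℝ)| ≤ X) →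
    ∃ (V2 : Type) (_ : Fintype V2) (_ : DecidableEq V2) (S2 : V → V' ⊕ V2 → ℤ) (K : V' ⊕ V2 → V → ℤ)
      (Δ : ℕ), 1 ≤ Δ ∧ Fintype.card V2 ≤ Fintype.card V ∧ (∀ v b, S2 v (Sum.inl b) = S v b) ∧
      (∀ v b, |(S2 v b : ℝ)| ≤ X) ∧ (∀ v v', ∑ b, S2 v b * K b v' = if v = v' then (Δ : ℤ) else 0) ∧
      (∀ b b', ∑ v, K b v * S2 v b' = if b = b' then (Δ : ℤ) else 0) ∧
      (Δ : ℝ) ≤ ((Fintype.card V + 1) * X) ^ Fintype.card V ∧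
      ∀ b v, |(K b v : ℝ)| ≤ ((Fintype.card V + 1) * X) ^ Fintype.card V

/-- triangular form of a quadratic form with blocks -/
def TRI : Prop := ∀ (τ σ0 σ1 β : Type) [Fintype τ] [DecidableEq τ] [Fintype σ0] [DecidableEq σ0]
  [Fintype σ1] [DecidableEq σ1] (f : τ → β) (f0 : σ0 → β) (f1 : σ1 → β) (B : Matrix τ (σ0 ⊕ σ1) ℝ)
  (B' : Matrix (σ0 ⊕ σ1) τ ℝ) (q0 : (σ0 → ℝ) → ℝ) (X : ℝ), B' * B = 1 →
    (∀ x y, B x y ≠ 0 → f x = Sum.elim f0 f1 y) → 1 ≤ X → (∀ x y, |B x y| ≤ X) →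
    (∀ y x, |B' y x| ≤ X) →
    (∀ u0, IsLeast {a : ℝ | ∃ u1, a = ∑ x, (B.mulVec (Sum.elim u0 u1) x) ^ 2} (q0 u0)) →
    ∃ (R0 : Matrix σ1 σ0 ℝ) (R1 R1' : Matrix σ1 σ1 ℝ), R1 * R1' = 1 ∧
      (∀ x y, R0 x y ≠ 0 → f1 x = f0 y) ∧ (∀ x y, (R1 x y ≠ 0 ∨ R1' x y ≠ 0) → f1 x = f1 y) ∧
      (∀ x y, |R0 x y| ≤ (Fintype.card τ + 1) * X) ∧ (∀ x y, |R1 x y| ≤ (Fintype.card τ + 1) * X) ∧
      (∀ x y, |R1' x y| ≤ (Fintype.card τ + 1) * X) ∧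
      ∀ u0 u1, ∑ x, (B.mulVec (Sum.elim u0 u1) x) ^ 2 =
        q0 u0 + ∑ x, (R0.mulVec u0 x + R1.mulVec u1 x) ^ 2

/-- the matrix of a substitution -/
def PHM : Prop := ∀ (ι V V' : Type) [Fintype ι] [DecidableEq ι] [Fintype V] [DecidableEq V]
  [Fintype V'] [DecidableEq V'] (w : ι → ℕ) (s : ℕ) (S : V → V' → ℤ) (X : ℝ), (∀ a, w a ≤ s) →
    1 ≤ X → (∀ v b, |(S v b : ℝ)| ≤ X) →
    ∃ M : Matrix (JI w V') (JI w V) ℝ, (∀ u : JI w V → ℝ, M.mulVec u = Ph S u) ∧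
      (∀ x y, M x y ≠ 0 → x.1.1 = y.1.1) ∧ (∀ x y, |M x y| ≤ ((Fintype.card V' + 1) * X) ^ s) ∧
      (∀ (z : JI w V → ℤ) (x : JI w V'), ((Ph S z x : ℤ) : ℝ) = Ph S (fun y => (z y : ℝ)) x) ∧
      ∀ (R : Type) [CommRing R] (d : ℤ) (z : JI w V → R) (x : JI w V),
        Ph (fun a b : V => if a = b then d else 0) z x = (d : R) ^ w x.1.1 * z x

end Vale.Agent.P057T.Pb
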