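import Vale.Agent.P057T.Pb.Quo0
import Vale.Agent.P057T.Cfg.Bas
import Vale.Agent.P057T.Cfg.Count
import Vale.Agent.P057T.L1

/-! Row QUO: the quotient form exists. -/

set_option linter.all false

open MvPolynomial Finset Matrix

namespace Vale.Agent.P057T.Pb

open Vale.Agent.P057T.Eq Vale.Agent.P057T.Cfg Vale.Agent.P057T.L1

namespace QuoP

variable {ι V V' : Type} [Fintype ι] [DecidableEq ι] [Fintype V] [DecidableEq V]
  [Fintype V'] [DecidableEq V'] {w : ι → ℕ}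

/-- the matrix of the substitution -/
noncomputable def PM (w : ι → ℕ) (S : V → V' → ℤ) : Matrix (JI w V') (JI w V) ℝ :=
  LinearMap.toMatrix' ⟨⟨Ph S, Ph_add S⟩, Ph_smul S⟩

theorem PM_vec (S : V → V' → ℤ) (u : JI w V → ℝ) : PM w S *ᵥ u = Ph S u :=
  LinearMap.toMatrix'_mulVec _ _

theorem pl_single (x : JI w V) (a : ι) :
    pl (Pi.single x (1 : ℝ) : JI w V → ℝ) a = if x.1.1 = a then monomial x.1.2 1 else 0 := by
  unfold pl
  rw [Finset.sum_eq_single x]
  · rw [Pi.single_eq_same]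
  · intro y _ hy
    rw [Pi.single_eq_of_ne hy, monomial_zero, ite_self]
  · simp

theorem PM_apply (S : V → V' → ℤ) (y : JI w V') (x : JI w V) : PM w S y x =
    coeff y.1.2 (sb ℝ S (if x.1.1 = y.1.1 then monomial x.1.2 1 else 0)) := by
  have := congrFun (PM_vec (w := w) S (Pi.single x 1)) y
  rw [mulVec_single_one, col_apply] at this
  rw [this, Ph, pl_single]

theorem PM_ne (S : V → V' → ℤ) {y : JI w V'} {x : JI w V} (h : PM w S y x ≠ 0) :
    y.1.1 = x.1.1 := by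
  by_contra k
  rw [PM_apply, if_neg (Ne.symm k), map_zero, coeff_zero] at h
  exact h rfl

theorem PM_le (S : V → V' → ℤ) {s a : ℕ} (hw : ∀ i, w i ≤ s) {E : ℝ} (E1 : 1 ≤ E)
    (hc : (Fintype.card V' : ℝ) ≤ E) (hS : ∀ v b, |(S v b : ℝ)| ≤ E ^ a) (y : JI w V')
    (x : JI w V) : |PM w S y x| ≤ E ^ ((a + 1) * s) := by
  rw [PM_apply]
  split_ifs
  · refine (abs_coeff_le _ _).trans ((nrm_aeval_le (M := E ^ (a + 1)) (d := s) (one_le_pow₀ E1)
      (fun v => ?_) ?_).trans_eq ?_)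
    · refine (nrm_sum_le _ _).trans (le_trans (le_of_eq ?_) (row_le (by linarith) hc (hS v)))
      exact Finset.sum_congr rfl fun b _ => by rw [nrm_C_mul, nrm_X, mul_one]
    · exact (isHomogeneous_monomial (1 : ℝ) (JI_deg x)).totalDegree_le.trans (hw _)
    · rw [nrm_monomial, abs_one, one_mul, pow_mul]
  · rw [map_zero, coeff_zero, abs_zero]
    positivity

theorem scale (φ : MvPolynomial V ℝ →ₐ[ℝ] MvPolynomial V ℝ) (D : ℝ)
    (h : ∀ v, φ (X v) = C D * X v) {Q : MvPolynomial V ℝ} {n : ℕ} (hQ : Q.IsHomogeneous n) :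
    φ Q = C (D ^ n) * Q := by
  conv_lhs => rw [Q.as_sum, map_sum]
  conv_rhs => rw [Q.as_sum, mul_sum]
  refine sum_congr rfl fun m hm => ?_
  have hd : ∑ i ∈ m.support, m i = n := by
    have := hQ (mem_support_iff.1 hm)
    rw [← this, Finsupp.weight_apply, Finsupp.sum]; simp
  rw [monomial_eq, map_mul, algHom_C, Finsupp.prod, map_prod]
  simp only [map_pow, h, mul_pow, prod_mul_distrib, prod_pow_eq_pow_sum, hd]
  rw [MvPolynomial.algebraMap_eq]
  ring

theorem PM_mul (S : V → V' → ℤ) (W : V' → V → ℤ) (d : ℤ)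
    (h : ∀ a b, ∑ v, W a v * S v b = if a = b then d else 0) :
    PM w S * PM w W = diagonal fun y => (d : ℝ) ^ w y.1.1 := by
  refine Matrix.ext_iff_mulVec.2 fun u => funext fun y => ?_
  rw [← mulVec_mulVec, PM_vec, PM_vec, mulVec_diagonal, Ph, pl_Ph]
  have e := scale ((sb ℝ S).comp (sb ℝ W)) d (fun a => ?_) (pl_hom u y.1.1)
  · rw [AlgHom.comp_apply] at e
    rw [e, coeff_C_mul, coeff_pl]
  · have e1 : ∀ v, sb ℝ S (C (W a v : ℝ) * X v) = ∑ b, C ((W a v * S v b : ℤ) : ℝ) * X b :=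
      fun v => by
        rw [map_mul, show sb ℝ S (C (W a v : ℝ)) = C (W a v : ℝ) from algHom_C _ _, sb, aeval_X,
          le, mul_sum]
        exact Finset.sum_congr rfl fun b _ => by rw [Int.cast_mul, C_mul, mul_assoc]
    rw [AlgHom.comp_apply, show sb ℝ W (X a) = le ℝ (W a) from aeval_X _ _, le, map_sum]
    simp only [e1]
    rw [Finset.sum_comm, Finset.sum_eq_single a]
    · rw [← Finset.sum_mul, ← map_sum, ← Int.cast_sum, h, if_pos rfl]
    · intro b _ hb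
      rw [← Finset.sum_mul, ← map_sum, ← Int.cast_sum, h, if_neg hb.symm, Int.cast_zero, C_0,
        zero_mul]
    · simp

theorem num {s M k : ℕ} {P Z : ℝ} (P2 : 2 ≤ P) (MP : (M : ℝ) ≤ P) (Z0 : 0 ≤ Z)
    (hk : k ≤ (4 * M + 3) * s + 4) : Real.exp Z ^ k ≤ Real.exp (P ^ (s + 5) * Z) := by
  rw [← Real.exp_nat_mul]
  refine Real.exp_le_exp.2 (mul_le_mul_of_nonneg_right ?_ Z0)
  have h1 : (k : ℝ) ≤ (4 * M + 3) * s + 4 := by exact_mod_cast hk
  have h2 : (s : ℝ) + 1 ≤ 2 ^ s := by exact_mod_cast Nat.lt_two_pow_self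
  have h3 : (2 : ℝ) ^ (s + 4) ≤ P ^ (s + 4) := pow_le_pow_left₀ (by norm_num) P2 _
  have s0 : (0 : ℝ) ≤ s := Nat.cast_nonneg s
  have h4 : 16 * ((s : ℝ) + 1) ≤ P ^ (s + 4) := by rw [pow_add] at h3; linarith
  have h5 := mul_le_mul_of_nonneg_right h4 (by linarith : 0 ≤ P)
  have h6 := mul_le_mul_of_nonneg_right MP s0
  have h7 := mul_le_mul_of_nonneg_right P2 s0
  rw [pow_succ P (s + 4)]
  nlinarith

end QuoP

open QuoP in
theorem quo : QUO := by
  intro s
  refine ⟨s + 5, fun ι V V' _ _ _ _ _ _ G M n P Z L S hG P2 hc MP PZ hV hV' hL _ n1 nZ ⟨W0, hW0⟩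
    hS => ?_⟩
  have Z0 : 0 ≤ Z := by linarith
  have PE : P ≤ Real.exp Z := by linarith [Real.add_one_le_exp Z]
  have E1 : 1 ≤ Real.exp Z := by linarith
  have cV : (Fintype.card V : ℝ) ≤ Real.exp Z := (Nat.cast_le.2 hV).trans (MP.trans PE)
  have cV' : (Fintype.card V' : ℝ) ≤ Real.exp Z := (Nat.cast_le.2 hV').trans (MP.trans PE)
  have c1 : (Fintype.card (JI G.w V) : ℝ) ≤ Real.exp Z := by
    refine le_trans ?_ (hc.trans PE)
    exact_mod_cast card_JI hG.ws hV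
  have c2 : (Fintype.card (JI G.w V') : ℝ) ≤ Real.exp Z := by
    refine le_trans ?_ (hc.trans PE)
    exact_mod_cast card_JI hG.ws hV'
  obtain ⟨N', hR, hN', -⟩ := hL.inv
  obtain ⟨W, d, d0, hW, bW⟩ := linv (Matrix.of S) (Matrix.of W0) n (by omega) (by
    ext a b
    rw [Matrix.mul_apply, Matrix.smul_apply, Matrix.one_apply, smul_eq_mul, mul_ite, mul_one, mul_zero]
    exact hW0 a b) E1 cV cV' hS
  have hm := PM_mul (w := G.w) S W d fun a b => by
    have := congrFun (congrFun hW a) b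
    rwa [Matrix.mul_apply, Matrix.smul_apply, Matrix.one_apply, smul_eq_mul, mul_ite, mul_one, mul_zero] at this
  have d1 : (1 : ℝ) ≤ |(d : ℝ)| := by exact_mod_cast Int.one_le_abs d0
  have dn : ∀ k : ℕ, (d : ℝ) ^ k ≠ 0 := fun k => pow_ne_zero k (Int.cast_ne_zero.2 d0)
  have ent : ∀ A : Matrix (JI G.w V) (JI G.w V) ℝ, (∀ x, ∑ y, |A x y| ≤ Real.exp Z) →
      ∀ x y, |A x y| ≤ Real.exp Z ^ 1 := fun A h x y => by
    rw [pow_one]
    exact (Finset.single_le_sum (f := fun y => |A x y|) (fun _ _ => abs_nonneg _)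
      (mem_univ y)).trans (h x)
  obtain ⟨H, H', h1, h2, h3, h4, h5, h6⟩ := quot L.N N' (PM G.w S)
    (PM G.w W * diagonal fun y : JI G.w V' => ((d : ℝ) ^ G.w y.1.1)⁻¹) hR.inv (by
      rw [← Matrix.mul_assoc, hm, diagonal_mul_diagonal, ← diagonal_one]
      exact congrArg diagonal (funext fun y => mul_inv_cancel₀ (dn _)))
    (f := fun y => (G.g y.1.1, G.w y.1.1)) (g := fun x => (G.g x.1.1, G.w x.1.1))
    (fun y x h => congrArg (fun a => (G.g a, G.w a)) (PM_ne S h))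
    (fun x y h => Prod.ext (hR.blk x y (Or.inr h)).1 (hR.blk x y (Or.inr h)).2)
    (a := (4 * M + 3) * s) E1 c1 c2 (ent _ hR.nb) (ent _ hN') (fun y x => by
      refine (PM_le S (a := 1) hG.ws E1 cV' (fun v b => by rw [pow_one]; exact hS v b) y x).trans ?_
      exact pow_le_pow_right₀ E1 (Nat.mul_le_mul_right _ (by omega))) (fun x y => by
      rw [mul_diagonal, abs_mul, abs_inv, abs_pow]
      refine (mul_le_of_le_one_right (abs_nonneg _)
        (inv_le_one_of_one_le₀ (one_le_pow₀ d1))).trans ((PM_le W hG.ws E1 cV bW x y).trans ?_)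
      exact pow_le_pow_right₀ E1 (Nat.mul_le_mul_right _ (by omega)))
  refine ⟨H', fun u' => ?_, fun c' r' => ⟨⟨H, ⟨h1, fun a b h => ?_,
    fun a => (h6 a).trans (num P2 MP Z0 le_rfl)⟩, fun a => (h5 a).trans (num P2 MP Z0 le_rfl),
    fun x y _ => by simp⟩, fun _ _ y _ => mem_univ y,
    Nat.mul_pos hL.n1 (Nat.pow_pos n1), ?_⟩⟩
  · simpa only [PM_vec] using h2 u'
  · exact Prod.mk.inj (h.elim (h4 a b) (h3 a b))
  · refine le_trans ?_ (num (k := s + 1) P2 MP Z0 (by nlinarith))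
    show ((L.n * n ^ s : ℕ) : ℝ) ≤ _
    rw [Nat.cast_mul, Nat.cast_pow, pow_succ']
    exact mul_le_mul hL.nZ (pow_le_pow_left₀ (Nat.cast_nonneg _) nZ _) (by positivity)
      (Real.exp_pos _).le

end Vale.Agent.P057T.Pb
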