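import Vale.Agent.P057T.Pb.Defs

/-! Quotients of quadratic forms along surjective matrices. -/

set_option linter.all false

open Finset Matrix
open scoped MatrixOrder

namespace Vale.Agent.P057T.Pb

namespace QuoP

variable {σ τ ρ β : Type} [Fintype σ] [DecidableEq σ] [Fintype τ] [DecidableEq τ] [Fintype ρ]
  [DecidableEq ρ]

theorem qf_eq (N : Matrix σ σ ℝ) (u : σ → ℝ) : qf N u = (N *ᵥ u) ⬝ᵥ (N *ᵥ u) :=
  Finset.sum_congr rfl fun _ _ => sq _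

theorem dot_tr (B : Matrix τ σ ℝ) (v : σ → ℝ) (y : τ → ℝ) : (B *ᵥ v) ⬝ᵥ y = v ⬝ᵥ (Bᵀ *ᵥ y) := by
  rw [dotProduct_comm, dotProduct_mulVec, mulVec_transpose, dotProduct_comm]

theorem dot_nn (v : σ → ℝ) : 0 ≤ v ⬝ᵥ v := Finset.sum_nonneg fun _ _ => mul_self_nonneg _

/-- a symmetric square root which commutes with the commutant -/
theorem root (B : Matrix τ σ ℝ) : ∃ H : Matrix τ τ ℝ, Hᵀ = H ∧ H * H = B * Bᵀ ∧
    ∀ D, Commute (B * Bᵀ) D → Commute H D := by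
  have h : (B * Bᵀ).PosSemidef := by
    simpa only [conjTranspose_eq_transpose_of_trivial] using posSemidef_self_mul_conjTranspose B
  refine ⟨CFC.sqrt (B * Bᵀ), ?_, CFC.sqrt_mul_sqrt_self _ h.nonneg, fun D hD => ?_⟩
  · have h1 : (CFC.sqrt (B * Bᵀ)).PosSemidef := (CFC.sqrt_nonneg _).posSemidef
    simpa only [conjTranspose_eq_transpose_of_trivial] using h1.1.eq
  · exact hD.cfcₙ_nnreal _

theorem core (N N' : Matrix σ σ ℝ) (Φ : Matrix τ σ ℝ) (R : Matrix σ τ ℝ) (hN : N * N' = 1)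
    (hR : Φ * R = 1) : ∃ H H' : Matrix τ τ ℝ, H' * H = 1 ∧
      (∀ u', IsLeast {a : ℝ | ∃ u, Φ *ᵥ u = u' ∧ a = qf N u} (qf H' u')) ∧
      (∀ t, qf H t = ((Φ * N')ᵀ *ᵥ t) ⬝ᵥ ((Φ * N')ᵀ *ᵥ t)) ∧
      ∀ D, Commute (Φ * N' * (Φ * N')ᵀ) D → Commute H D ∧ Commute H' D := by
  have hN' : N' * N = 1 := mul_eq_one_comm.1 hN
  obtain ⟨B, hB⟩ : ∃ B, B = Φ * N' := ⟨_, rfl⟩
  rw [← hB]
  have hBN : B * N = Φ := by rw [hB, Matrix.mul_assoc, hN', Matrix.mul_one]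
  obtain ⟨H, h1, h2, h3⟩ := root B
  have hq : ∀ t, qf H t = (Bᵀ *ᵥ t) ⬝ᵥ (Bᵀ *ᵥ t) := fun t => by
    rw [qf_eq, dot_tr, dot_tr, h1, transpose_transpose, mulVec_mulVec, mulVec_mulVec, h2]
  have hd : H.det ≠ 0 := fun h => by
    obtain ⟨t, t0, ht⟩ := exists_mulVec_eq_zero_iff.2 h
    have e1 := hq t
    rw [qf_eq, ht, zero_dotProduct] at e1
    have e2 : Bᵀ *ᵥ t = 0 := dotProduct_self_eq_zero.1 e1.symm
    have e3 : (N * R)ᵀ * Bᵀ = 1 := by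
      rw [← transpose_mul, ← Matrix.mul_assoc, hBN, hR, transpose_one]
    apply t0
    rw [← one_mulVec t, ← e3, ← mulVec_mulVec, e2, mulVec_zero]
  have hu : IsUnit H.det := hd.isUnit
  have i1 : H⁻¹ * H = 1 := nonsing_inv_mul H hu
  have i2 : H * H⁻¹ = 1 := mul_nonsing_inv H hu
  have i3 : H⁻¹ᵀ = H⁻¹ := by rw [transpose_nonsing_inv, h1]
  refine ⟨H, H⁻¹, i1, fun u' => ?_, hq, fun D hD => ⟨h3 D hD, ?_⟩⟩
  · obtain ⟨y, hy⟩ : ∃ y, y = H⁻¹ *ᵥ (H⁻¹ *ᵥ u') := ⟨_, rfl⟩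
    have y1 : H *ᵥ y = H⁻¹ *ᵥ u' := by rw [hy, mulVec_mulVec, i2, one_mulVec]
    have y2 : qf H⁻¹ u' = (Bᵀ *ᵥ y) ⬝ᵥ (Bᵀ *ᵥ y) := by rw [← hq, qf_eq, qf_eq, y1]
    refine ⟨⟨N' *ᵥ (Bᵀ *ᵥ y), ?_, ?_⟩, ?_⟩
    · rw [mulVec_mulVec, ← hB, mulVec_mulVec, ← h2, ← mulVec_mulVec, y1, mulVec_mulVec, i2,
        one_mulVec]
    · rw [y2, qf_eq, mulVec_mulVec, hN, one_mulVec]
    · rintro a ⟨u, hu, rfl⟩
      have y3 : qf H⁻¹ u' = (N *ᵥ u) ⬝ᵥ (Bᵀ *ᵥ y) := by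
        rw [← dot_tr, mulVec_mulVec, hBN, hu, qf_eq, dot_tr, i3, hy]
      have y4 := dot_nn (N *ᵥ u - Bᵀ *ᵥ y)
      rw [sub_dotProduct, dotProduct_sub, dotProduct_sub, dotProduct_comm (Bᵀ *ᵥ y) (N *ᵥ u),
        ← y2, ← y3, ← qf_eq] at y4
      linarith
  · have e := (h3 D hD).eq
    show H⁻¹ * D = D * H⁻¹
    calc H⁻¹ * D = H⁻¹ * (D * H) * H⁻¹ := by
          rw [Matrix.mul_assoc, Matrix.mul_assoc, i2, Matrix.mul_one]
      _ = D * H⁻¹ := by rw [← e, ← Matrix.mul_assoc, i1, Matrix.one_mul]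

/-- the matrix respects the labels -/
def Bl (f : τ → β) (g : σ → β) (A : Matrix τ σ ℝ) : Prop := ∀ x y, A x y ≠ 0 → f x = g y

theorem Bl.mul {f : τ → β} {g : σ → β} {h : ρ → β} {A : Matrix τ σ ℝ} {B : Matrix σ ρ ℝ}
    (hA : Bl f g A) (hB : Bl g h B) : Bl f h (A * B) := fun x z k => by
  obtain ⟨y, -, hy⟩ := Finset.exists_ne_zero_of_sum_ne_zero (mul_apply (M := A) (N := B) ▸ k)
  exact (hA x y (left_ne_zero_of_mul hy)).trans (hB y z (right_ne_zero_of_mul hy))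

theorem Bl.tr {f : τ → β} {g : σ → β} {A : Matrix τ σ ℝ} (hA : Bl f g A) : Bl g f Aᵀ :=
  fun x y k => (hA y x k).symm

theorem Bl.comm {f : τ → β} {A : Matrix τ τ ℝ} (hA : Bl f f A) (φ : β → ℝ) :
    Commute A (diagonal fun x => φ (f x)) := by
  ext x y
  rw [mul_diagonal, diagonal_mul]
  by_cases h : A x y = 0
  · rw [h, zero_mul, mul_zero]
  · rw [hA x y h, mul_comm]

theorem bl_of {f : τ → β} {A : Matrix τ τ ℝ}
    (h : ∀ φ : β → ℝ, Commute A (diagonal fun x => φ (f x))) : Bl f f A := fun x y k => by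
  classical
  have e := congrFun (congrFun (h fun b => if b = f x then 1 else 0).eq x) y
  rw [mul_diagonal, diagonal_mul, if_pos rfl, one_mul] at e
  by_contra hn
  rw [if_neg (Ne.symm hn), mul_zero] at e
  exact k e.symm

theorem ent_mul {A : Matrix τ σ ℝ} {B : Matrix σ ρ ℝ} {E : ℝ} {a b : ℕ} (E0 : 0 ≤ E)
    (hc : (Fintype.card σ : ℝ) ≤ E) (hA : ∀ x y, |A x y| ≤ E ^ a) (hB : ∀ x y, |B x y| ≤ E ^ b)
    (x : τ) (z : ρ) : |(A * B) x z| ≤ E ^ (a + b + 1) := by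
  rw [mul_apply]
  refine (Finset.abs_sum_le_sum_abs _ _).trans ((Finset.sum_le_card_nsmul _ _ (E ^ (a + b))
    fun y _ => ?_).trans ?_)
  · rw [abs_mul, pow_add]
    exact mul_le_mul (hA x y) (hB y z) (abs_nonneg _) (pow_nonneg E0 _)
  · rw [nsmul_eq_mul, pow_succ']
    exact mul_le_mul_of_nonneg_right hc (pow_nonneg E0 _)

theorem row_le {f : σ → ℝ} {E : ℝ} {a : ℕ} (E0 : 0 ≤ E) (hc : (Fintype.card σ : ℝ) ≤ E)
    (h : ∀ y, |f y| ≤ E ^ a) : ∑ y, |f y| ≤ E ^ (a + 1) := by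
  refine (Finset.sum_le_card_nsmul _ _ (E ^ a) fun y _ => h y).trans ?_
  rw [nsmul_eq_mul, pow_succ']
  exact mul_le_mul_of_nonneg_right hc (pow_nonneg E0 _)

/-- entries from the form -/
theorem ent_qf {H : Matrix τ τ ℝ} {v : σ → ℝ} {E : ℝ} {a : ℕ} (E1 : 1 ≤ E)
    (hc : (Fintype.card σ : ℝ) ≤ E) (hv : ∀ z, |v z| ≤ E ^ a) (x y : τ)
    (h : qf H (Pi.single y 1) ≤ v ⬝ᵥ v) : |H x y| ≤ E ^ (a + 1) := by
  have E0 : 0 ≤ E := by linarith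
  have h1 : H x y ^ 2 ≤ qf H (Pi.single y 1) := by
    have := Finset.single_le_sum (f := fun x => ((H *ᵥ Pi.single y 1) x) ^ 2)
      (fun _ _ => sq_nonneg _) (mem_univ x)
    simpa only [qf, mulVec_single_one, col_apply] using this
  have h2 : v ⬝ᵥ v ≤ E ^ (a + a + 1) := (le_abs_self _).trans
    ((Finset.abs_sum_le_sum_abs _ _).trans (row_le E0 hc fun z => by
      rw [abs_mul, pow_add]
      exact mul_le_mul (hv z) (hv z) (abs_nonneg _) (pow_nonneg E0 _)))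
  refine abs_le_of_sq_le_sq' (h1.trans (h.trans (h2.trans ?_))) (pow_nonneg E0 _) |> abs_le.2
  rw [← pow_mul]
  exact pow_le_pow_right₀ E1 (by omega)

/-- the quotient form with labels and sizes -/
theorem quot (N N' : Matrix σ σ ℝ) (Φ : Matrix τ σ ℝ) (R : Matrix σ τ ℝ) (hN : N * N' = 1)
    (hR : Φ * R = 1) {f : τ → β} {g : σ → β} (b1 : Bl f g Φ) (b2 : Bl g g N') {E : ℝ} {a : ℕ}
    (E1 : 1 ≤ E) (c1 : (Fintype.card σ : ℝ) ≤ E) (c2 : (Fintype.card τ : ℝ) ≤ E)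
    (n1 : ∀ x y, |N x y| ≤ E ^ 1) (n2 : ∀ x y, |N' x y| ≤ E ^ 1) (p1 : ∀ x y, |Φ x y| ≤ E ^ a)
    (p2 : ∀ x y, |R x y| ≤ E ^ a) : ∃ H H' : Matrix τ τ ℝ, H' * H = 1 ∧
      (∀ u', IsLeast {a : ℝ | ∃ u, Φ *ᵥ u = u' ∧ a = qf N u} (qf H' u')) ∧ Bl f f H ∧ Bl f f H' ∧
      (∀ x, ∑ y, |H x y| ≤ E ^ (a + 4)) ∧ ∀ x, ∑ y, |H' x y| ≤ E ^ (a + 4) := by
  have E0 : 0 ≤ E := by linarith
  obtain ⟨H, H', h1, h2, h3, h4⟩ := core N N' Φ R hN hR
  have b3 := (b1.mul b2).mul (b1.mul b2).tr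
  refine ⟨H, H', h1, h2, bl_of fun φ => (h4 _ (b3.comm φ)).1, bl_of fun φ => (h4 _ (b3.comm φ)).2,
    fun x => row_le E0 c2 fun y => ?_, fun x => row_le E0 c2 fun y => ?_⟩
  · refine ent_qf (a := a + 2) E1 c1 (fun z => ?_) x y (h3 _).le
    rw [mulVec_single_one]
    exact ent_mul E0 c1 p1 n2 y z
  · refine ent_qf (a := a + 2) (v := N *ᵥ (R *ᵥ Pi.single y 1)) E1 c1 (fun z => ?_) x y ?_
    · rw [mulVec_mulVec, mulVec_single_one, show a + 2 = 1 + a + 1 by omega]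
      exact ent_mul E0 c1 n1 p2 z y
    · exact (h2 _).2 ⟨_, by rw [mulVec_mulVec, hR, one_mulVec], (qf_eq _ _).symm⟩

/-- a bounded integer left inverse up to a non zero factor -/
theorem linv (S : Matrix σ τ ℤ) (W0 : Matrix τ σ ℤ) (n : ℤ) (hn : n ≠ 0) (h : W0 * S = n • 1)
    {E : ℝ} (E1 : 1 ≤ E) (c1 : (Fintype.card σ : ℝ) ≤ E) (c2 : (Fintype.card τ : ℝ) ≤ E)
    (hS : ∀ v b, |(S v b : ℝ)| ≤ E) : ∃ (W : Matrix τ σ ℤ) (d : ℤ), d ≠ 0 ∧ W * S = d • 1 ∧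
      ∀ b v, |(W b v : ℝ)| ≤ E ^ (4 * Fintype.card τ + 2) := by
  have E0 : 0 ≤ E := by linarith
  refine ⟨(Sᵀ * S).adjugate * Sᵀ, (Sᵀ * S).det, fun hd => ?_,
    by rw [Matrix.mul_assoc, adjugate_mul], fun b v => ?_⟩
  · obtain ⟨t, t0, ht⟩ := exists_mulVec_eq_zero_iff.2 hd
    have e1 : (S *ᵥ t) ⬝ᵥ (S *ᵥ t) = 0 := by
      rw [dotProduct_mulVec, ← mulVec_transpose, mulVec_mulVec, ht, zero_dotProduct]
    have e2 : (W0 * S) *ᵥ t = 0 := by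
      rw [← mulVec_mulVec, dotProduct_self_eq_zero.1 e1, mulVec_zero]
    rw [h, smul_mulVec, one_mulVec] at e2
    exact t0 ((smul_eq_zero.1 e2).resolve_left hn)
  · have s1 : ∀ v b, |S.map (Int.cast : ℤ → ℝ) v b| ≤ E ^ 1 := fun v b => by
      rw [pow_one]; exact hS v b
    have s2 : ∀ a b, |(((Sᵀ * S) a b : ℤ) : ℝ)| ≤ E ^ 3 := fun a b => by
      have := ent_mul (A := (S.map (Int.cast : ℤ → ℝ))ᵀ) E0 c1 (fun x y => s1 y x) s1 a b
      simpa only [mul_apply, transpose_apply, map_apply, Int.cast_sum, Int.cast_mul] using this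
    have s3 : ∀ a b, |(Sᵀ * S).adjugate.map (Int.cast : ℤ → ℝ) a b| ≤
        E ^ (4 * Fintype.card τ) := fun a b => by
      rw [map_apply, adjugate_apply, Int.cast_det]
      refine (det_le (abv := AbsoluteValue.abs) (x := E ^ 3) fun i j => ?_).trans ?_
      · rw [map_apply, updateRow_apply, AbsoluteValue.abs_apply]
        split_ifs
        · refine le_trans ?_ (one_le_pow₀ E1)
          by_cases k : j = a
          · simp [k]
          · simp [k]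
        · exact s2 i j
      · rw [nsmul_eq_mul, show 4 * Fintype.card τ = Fintype.card τ + 3 * Fintype.card τ by omega,
          pow_add, pow_mul]
        refine mul_le_mul_of_nonneg_right (le_trans ?_ (pow_le_pow_left₀ (Nat.cast_nonneg _) c2 _))
          (by positivity)
        exact_mod_cast Nat.factorial_le_pow _
    have := ent_mul (B := (S.map (Int.cast : ℤ → ℝ))ᵀ) E0 c2 s3 (fun x y => s1 y x) b v
    simpa only [mul_apply, transpose_apply, map_apply, Int.cast_sum, Int.cast_mul] using this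

end QuoP

end Vale.Agent.P057T.Pb
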