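import Vale.Agent.P057T.Pb.Defs

/-! Tails of the laws on jets, and close laws. -/

set_option linter.all false

open MvPolynomial Finset
open scoped Real BigOperators

namespace Vale.Agent.P057T.Pb

open Vale.Agent.P057T.Eq Vale.Agent.P057T.Cfg Vale.Agent.P057L

namespace Tl

variable {ι V : Type} [Fintype ι] [DecidableEq ι] [Fintype V] [DecidableEq V]

theorem Hb_mono (hM : Cp.MONO) {G : GT ι} {T : AT ι} {s M : ℕ} {WW : ℕ → ℝ} {P c Z c' Z' : ℝ}
    (h : Hb G T s M WW P c Z) (h1 : 1 ≤ c') (h2 : c' ≤ c) (h3 : P ≤ Z')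
    (h4 : c' * (c' * Z') ≤ c * (c * Z)) : Hb G T s M WW P c' Z' := by
  have k := (hM s ι G WW c (c * Z) c' (c' * Z') ⟨h.ok, h.wd, fun g hg => (h.rs g hg).1,
    fun g hg => (h.rs g hg).2⟩ h1 (one_le_mul_of_one_le_of_one_le h1 (by linarith [h.P2])) h2 h4).1
  exact ⟨h.ok, h.ao, h.un, h.sg, h.wd, h.P2, h.cd, h.MP, h3, fun g hg => ⟨k.big g hg, k.small g hg⟩⟩

theorem Hb_pow (hM : Cp.MONO) {G : GT ι} {T : AT ι} {s M : ℕ} {WW : ℕ → ℝ} {P Z : ℝ} {c c' : ℕ}
    (h : Hb G T s M WW P (P ^ c) Z) (hc : c' ≤ c) : Hb G T s M WW P (P ^ c') Z := by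
  have h1 : 1 ≤ P := by linarith [h.P2]
  have a : P ^ c' ≤ P ^ c := pow_le_pow_right₀ h1 hc
  have z : 0 ≤ Z := by linarith [h.PZ]
  exact Hb_mono hM h (one_le_pow₀ h1) a h.PZ (mul_le_mul a (mul_le_mul_of_nonneg_right a z)
    (by positivity) (by positivity))

theorem Hb_succ (hM : Cp.MONO) {G : GT ι} {T : AT ι} {s M : ℕ} {WW : ℕ → ℝ} {P Z : ℝ} {c : ℕ}
    (h : Hb G T s M WW P (P ^ (c + 1)) Z) : Hb G T s M WW P (P ^ c) (Z + 1) := by
  have h2 := h.P2
  have h1 : 1 ≤ P := by linarith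
  have z : 2 ≤ Z := h2.trans h.PZ
  refine Hb_mono hM h (one_le_pow₀ h1) (pow_le_pow_right₀ h1 (Nat.le_succ c)) (by linarith [h.PZ]) ?_
  have a : Z + 1 ≤ P * P * Z := by nlinarith [mul_le_mul h2 h2 zero_le_two (by linarith)]
  calc _ ≤ P ^ c * (P ^ c * (P * P * Z)) := by gcongr
    _ = _ := by ring

theorem q_nonneg {σ : Type} [Fintype σ] (L : Lw σ) (u : σ → ℝ) : 0 ≤ L.q u :=
  sum_nonneg fun _ _ => sq_nonneg _

theorem wt_nonneg (G : GT ι) (T : AT ι) (e : V → ℤ) (L : Lw (JI G.w V)) (z : JI G.w V → ℤ) :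
    0 ≤ wt G T e L z := by
  unfold wt
  split_ifs
  exacts [(Real.exp_pos _).le, le_rfl]

theorem ind01 (p : Prop) : 0 ≤ ind p ∧ ind p ≤ 1 := by
  unfold ind
  split_ifs <;> norm_num

theorem sm_mul {α : Type} {w F : α → ℝ} (hw : Summable w) (h0 : ∀ z, 0 ≤ w z) (hF : ∀ z, |F z| ≤ 1) :
    Summable fun z => w z * F z :=
  Summable.of_norm_bounded hw fun z => by
    rw [Real.norm_eq_abs, abs_mul, abs_of_nonneg (h0 z)]
    exact mul_le_of_le_one_right (h0 z) (hF z)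

theorem abs_sum {α : Type} {w F : α → ℝ} (hw : Summable w) (h0 : ∀ z, 0 ≤ w z) (hF : ∀ z, |F z| ≤ 1) :
    |∑' z, w z * F z| ≤ ∑' z, w z :=
  tsum_of_norm_bounded (f := fun z => w z * F z) hw.hasSum fun z => by
    rw [Real.norm_eq_abs, abs_mul, abs_of_nonneg (h0 z)]
    exact mul_le_of_le_one_right (h0 z) (hF z)

theorem ind_abs (p : Prop) : |ind p| ≤ 1 := abs_le.2 ⟨by linarith [(ind01 p).1], (ind01 p).2⟩

theorem half {Z m S : ℝ} (hZ : 2 ≤ Z) (hm : 0 < m) (h : |S - m| ≤ Real.exp (-Z) * m) :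
    m / 2 ≤ S ∧ S ≤ 2 * m := by
  have a : Real.exp (-Z) ≤ 1 / 2 := by
    rw [Real.exp_neg, one_div]
    exact inv_anti₀ two_pos (by linarith [Real.add_one_le_exp Z])
  have b := abs_le.1 (h.trans (mul_le_mul_of_nonneg_right a hm.le))
  constructor <;> linarith [b.1, b.2]

/-- the widened law -/
noncomputable def wide {σ : Type} (L : Lw σ) : Lw σ := { L with N := (1 / 2 : ℝ) • L.N }

theorem q_wide {σ : Type} [Fintype σ] (L : Lw σ) (u : σ → ℝ) : (wide L).q u = L.q u / 4 := by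
  unfold Lw.q
  rw [sum_div]
  refine sum_congr rfl fun x _ => ?_
  show (((1 / 2 : ℝ) • L.N).mulVec u x) ^ 2 = _
  rw [Matrix.smul_mulVec, Pi.smul_apply, smul_eq_mul]
  ring

theorem lok_wide {G : GT ι} {L : Lw (JI G.w V)} {Z : ℝ} (h : Lok G L Z) : Lok G (wide L) (Z + 1) := by
  obtain ⟨N', r, h1, h2⟩ := h.inv
  have e : 2 * Real.exp Z ≤ Real.exp (Z + 1) := by
    rw [Real.exp_add, mul_comm]
    exact mul_le_mul_of_nonneg_left (by linarith [Real.add_one_le_exp (1 : ℝ)]) (Real.exp_pos _).le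
  have p := Real.exp_pos Z
  have k : ∀ x y, ((wide L).N x y ≠ 0 ∨ ((2 : ℝ) • N') x y ≠ 0) → (L.N x y ≠ 0 ∨ N' x y ≠ 0) :=
    fun x y => Or.imp (fun a b => a (by simp [wide, b])) fun a b => a (by simp [b])
  refine ⟨⟨(2 : ℝ) • N', ⟨?_, fun a b hab => r.blk a b (k a b hab), fun a => ?_⟩, fun x => ?_,
    fun x y hxy => h2 x y (k x y hxy)⟩, h.cl, h.n1, h.nZ.trans (by linarith)⟩
  · show ((1 / 2 : ℝ) • L.N) * _ = _
    rw [smul_mul_smul_comm, r.inv]
    norm_num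
  · refine le_trans (sum_le_sum fun b _ => ?_) ((r.nb a).trans (by linarith))
    show |(1 / 2 : ℝ) * L.N a b| ≤ _
    rw [abs_mul, abs_of_pos one_half_pos]
    linarith [abs_nonneg (L.N a b)]
  · simp only [Matrix.smul_apply, smul_eq_mul, abs_mul, abs_two, ← mul_sum]
    linarith [h1 x]

theorem mq_wide (G : GT ι) (L : Lw (JI G.w V)) : mq G (wide L) = 2 ^ L.U.card * mq G L := by
  have e : (wide L).N.submatrix (Subtype.val : L.U → JI G.w V) (Subtype.val : L.U → JI G.w V) =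
      (1 / 2 : ℝ) • L.N.submatrix (Subtype.val : L.U → JI G.w V) (Subtype.val : L.U → JI G.w V) := rfl
  show (jet G V fun _ => 1).dv L.U * |((wide L).N.submatrix (Subtype.val : L.U → JI G.w V)
    (Subtype.val : L.U → JI G.w V)).det|⁻¹ * ((L.n : ℝ) ^ L.U.card)⁻¹ = _
  rw [e, Matrix.det_smul, Fintype.card_coe, abs_mul, abs_of_pos (by positivity), mul_inv, one_div,
    inv_pow, inv_inv, mq]
  ring

theorem cmp {α : Type} {w w' F i i' : α → ℝ} {η τ : ℝ} (hw : Summable w) (hw' : Summable w')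
    (h0 : ∀ z, 0 ≤ w z) (h0' : ∀ z, 0 ≤ w' z) (hF : ∀ z, |F z| ≤ 1) (hi : ∀ z, |i z| ≤ 1)
    (hi' : ∀ z, |i' z| ≤ 1) (hm : 0 < ∑' z, w z) (hm' : 0 < ∑' z, w' z) (η0 : 0 ≤ η) (η1 : η ≤ 1 / 2)
    (τ0 : 0 ≤ τ) (hd : ∀ z, |w z - w' z| ≤ η * w z + w z * i z + w' z * i' z)
    (ht : (∑' z, w z * i z) / ∑' z, w z ≤ τ) (ht' : (∑' z, w' z * i' z) / ∑' z, w' z ≤ τ) :
    |(∑' z, w z * F z) / (∑' z, w z) - (∑' z, w' z * F z) / ∑' z, w' z| ≤ 2 * η + 8 * τ := by
  have s1 := sm_mul hw h0 hi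
  have s2 := sm_mul hw' h0' hi'
  have hs := (((hw.mul_left η).add s1).add s2).hasSum
  rw [((hw.mul_left η).add s1).tsum_add s2, (hw.mul_left η).tsum_add s1, tsum_mul_left] at hs
  have d1 := tsum_of_norm_bounded (f := fun z => w z * F z - w' z * F z) hs fun z => by
    rw [Real.norm_eq_abs, ← sub_mul, abs_mul]
    exact (mul_le_of_le_one_right (abs_nonneg _) (hF z)).trans (hd z)
  have d2 := tsum_of_norm_bounded (f := fun z => w z - w' z) hs fun z => hd z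
  rw [(sm_mul hw h0 hF).tsum_sub (sm_mul hw' h0' hF), Real.norm_eq_abs] at d1
  rw [hw.tsum_sub hw', Real.norm_eq_abs] at d2
  have a1 := abs_sum hw h0 hF
  have a2 := abs_sum hw' h0' hF
  rw [div_le_iff₀ hm] at ht
  rw [div_le_iff₀ hm'] at ht'
  generalize ∑' z, w z * F z = A at *
  generalize ∑' z, w' z * F z = A' at *
  generalize ∑' z, w z * i z = t at *
  generalize ∑' z, w' z * i' z = t' at *
  generalize ∑' z, w z = m at *
  generalize ∑' z, w' z = m' at *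
  have b1 : |A / m| ≤ 1 := by rw [abs_div, abs_of_pos hm, div_le_one hm]; exact a1
  have b2 : |A' / m'| ≤ 1 := by rw [abs_div, abs_of_pos hm', div_le_one hm']; exact a2
  by_cases hτ : 1 / 4 ≤ τ
  · linarith only [abs_sub (A / m) (A' / m'), b1, b2, hτ, η0]
  have hτ' := (not_le.1 hτ).le
  have c1 := mul_le_mul_of_nonneg_right hτ' hm.le
  have c2 := mul_le_mul_of_nonneg_right hτ' hm'.le
  have c3 := mul_le_mul_of_nonneg_right η1 hm.le
  have c4 : m' ≤ 3 * m := by linarith only [(abs_le.1 d2).1, c1, c2, c3, ht, ht', hm]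
  have c5 := mul_le_mul_of_nonneg_left c4 τ0
  have e : A / m - A' / m' = ((A - A') - A' / m' * (m - m')) / m := by field_simp; ring
  rw [e, abs_div, abs_of_pos hm, div_le_iff₀ hm]
  refine (abs_sub _ _).trans ?_
  rw [abs_mul]
  linarith only [mul_le_of_le_one_left (abs_nonneg (m - m')) b2, d1, d2, ht, ht', c5]

theorem q_add {σ : Type} [Fintype σ] (L : Lw σ) (x δ : σ → ℝ) : ∃ b : ℝ,
    L.q (x + δ) = L.q x + 2 * b + L.q δ ∧ b ^ 2 ≤ L.q x * L.q δ := by
  refine ⟨∑ a ∈ L.U, L.N.mulVec x a * L.N.mulVec δ a, ?_, sum_mul_sq_le_sq_mul_sq _ _ _⟩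
  unfold Lw.q
  rw [mul_sum, ← sum_add_distrib, ← sum_add_distrib]
  refine sum_congr rfl fun a _ => ?_
  rw [Matrix.mulVec_add, Pi.add_apply]
  ring

theorem num {a d b y a' ε R : ℝ} (a0 : 0 ≤ a) (d0 : 0 ≤ d) (y0 : 0 ≤ y) (hy : y = a + 2 * b + d)
    (hb : b ^ 2 ≤ a * d) (hd : d ≤ ε ^ 2) (h : |y - a'| ≤ ε * y) (e0 : 0 ≤ ε) (hR : 1 ≤ R)
    (hε : ε * R ≤ 1 / 100) : (a ≤ R → |a - a'| ≤ 5 * (ε * R)) ∧ (R ≤ a → R / 4 ≤ a') := by
  have e1 : ε ≤ ε * R := le_mul_of_one_le_right e0 hR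
  have e2 : ε ^ 2 ≤ ε / 100 := by nlinarith
  have h' := abs_le.1 h
  refine ⟨fun ha => ?_, fun ha => ?_⟩
  · have k : b ^ 2 ≤ (ε * R) ^ 2 := by
      have : a * d ≤ R * ε ^ 2 := mul_le_mul ha hd d0 (by linarith)
      have : R * ε ^ 2 ≤ R * R * ε ^ 2 :=
        mul_le_mul_of_nonneg_right (le_mul_of_one_le_right (by linarith) hR) (sq_nonneg _)
      nlinarith
    have k1 := abs_le.1 (abs_le_of_sq_le_sq k (by positivity))
    have k2 : ε * y ≤ ε * (2 * R) := mul_le_mul_of_nonneg_left (by linarith [k1.2]) e0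
    exact abs_le.2 ⟨by linarith [k1.1, k1.2, h'.1, h'.2], by linarith [k1.1, k1.2, h'.1, h'.2]⟩
  · have k : -(a / 4 + d) ≤ b := by
      have : b ^ 2 ≤ (a / 4 + d) ^ 2 := by nlinarith [sq_nonneg (a / 4 - d)]
      exact (abs_le.1 (abs_le_of_sq_le_sq this (by positivity))).1
    have k2 : ε * y ≤ 1 / 100 * y := mul_le_mul_of_nonneg_right (by linarith) y0
    linarith [h'.2]

theorem ex {a a' η : ℝ} (h : |a - a'| ≤ 5 * η) (hη : η ≤ 1 / 100) :
    |Real.exp (-π * a) - Real.exp (-π * a')| ≤ 40 * η * Real.exp (-π * a) := by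
  have k : |π * (a - a')| ≤ 20 * η := by
    rw [abs_mul, abs_of_pos Real.pi_pos]
    linarith [mul_le_mul Real.pi_le_four h (abs_nonneg _) (by norm_num)]
  have e : Real.exp (-π * a) - Real.exp (-π * a') =
      -((Real.exp (π * (a - a')) - 1) * Real.exp (-π * a)) := by
    rw [sub_mul, ← Real.exp_add, show π * (a - a') + -π * a = -π * a' by ring]; ring
  rw [e, abs_neg, abs_mul, abs_of_pos (Real.exp_pos _)]
  exact mul_le_mul_of_nonneg_right ((Real.abs_exp_sub_one_le (by linarith)).trans (by linarith))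
    (Real.exp_pos _).le

end Tl

open Tl in
theorem tail (hM : Cp.MONO) (hQ : MASQ) : TAIL := by
  intro s
  obtain ⟨c, hQ⟩ := hQ s
  refine ⟨c + 1, ?_⟩
  intro ι V _ _ _ _ G T M WW P Z R e L h hV hL
  have z : 2 ≤ Z := h.P2.trans h.PZ
  obtain ⟨a1, a2, a3, a4⟩ := hQ ι V G T M WW P Z e L (Hb_pow hM h (Nat.le_succ c)) hV hL
  obtain ⟨-, b2, b3, b4⟩ := hQ ι V G T M WW P (Z + 1) e (wide L) (Hb_succ hM h) hV (lok_wide hL)
  have m1 := (half z a3 a4).1
  have m2 := (half (by linarith) b3 b4).2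
  rw [mq_wide] at m2
  have k : ∑' z, wt G T e L z * ind (R ≤ L.q (uj G T e z - L.c)) ≤
      Real.exp (-R) * ∑' z, wt G T e (wide L) z := by
    rw [← tsum_mul_left]
    refine (sm_mul a2 (wt_nonneg G T e L) fun _ => ind_abs _).tsum_le_tsum (fun z => ?_)
      (b2.mul_left _)
    by_cases h1 : R ≤ L.q (uj G T e z - L.c)
    · rw [ind, if_pos h1, mul_one]
      by_cases h2 : L.In z
      · rw [wt, wt, if_pos h2, if_pos (show (wide L).In z from h2), q_wide, ← Real.exp_add]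
        refine Real.exp_le_exp.2 ?_
        have := mul_le_mul_of_nonneg_right Real.pi_gt_three.le (q_nonneg L (uj G T e z - L.c))
        have e1 : (wide L).c = L.c := rfl
        rw [e1]
        linarith [q_nonneg L (uj G T e z - L.c)]
      · rw [wt, if_neg h2]
        exact mul_nonneg (Real.exp_pos _).le (wt_nonneg _ _ _ _ _)
    · rw [ind, if_neg h1, mul_zero]
      exact mul_nonneg (Real.exp_pos _).le (wt_nonneg _ _ _ _ _)
  have p1 : (2 : ℝ) ^ L.U.card ≤ Real.exp P := by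
    refine le_trans (pow_le_pow_left₀ zero_le_two (b := Real.exp 1)
      (by linarith [Real.add_one_le_exp (1 : ℝ)]) _) ?_
    rw [← Real.exp_nat_mul, mul_one]
    exact Real.exp_le_exp.2 (le_trans (by exact_mod_cast card_le_univ _) a1)
  have p2 : 4 ≤ Real.exp 2 := le_trans (by norm_num) (Real.quadratic_le_exp_of_nonneg zero_le_two)
  rw [Ev, div_le_iff₀ (by linarith), show P + 2 - R = -R + (P + 2) by ring, Real.exp_add,
    Real.exp_add, mul_assoc]
  refine k.trans (mul_le_mul_of_nonneg_left (m2.trans ?_) (Real.exp_pos _).le)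
  calc _ = 2 ^ L.U.card * 4 * (mq G L / 2) := by ring
    _ ≤ _ := mul_le_mul (mul_le_mul p1 p2 (by norm_num) (Real.exp_pos _).le) m1 (by linarith)
        (by positivity)

open Tl in
theorem tvq (hM : Cp.MONO) (hQ : MASQ) (hT : TAIL) : TVQ := by
  intro s
  obtain ⟨c, hQ⟩ := hQ s
  obtain ⟨c', hT⟩ := hT s
  refine ⟨c + c', ?_⟩
  intro ι V _ _ _ _ G T M WW P Z R ε e L L' F h hV hL hL' e1 e2 e3 ε0 hR hε hq hc hF
  have z : 2 ≤ Z := h.P2.trans h.PZ
  obtain ⟨-, a2, a3, a4⟩ := hQ ι V G T M WW P Z e L (Hb_pow hM h (by omega)) hV hL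
  obtain ⟨-, b2, b3, b4⟩ := hQ ι V G T M WW P Z e L' (Hb_pow hM h (by omega)) hV hL'
  have t1 := (hT ι V G T M WW P Z R e L (Hb_pow hM h (by omega)) hV hL).trans
    (Real.exp_le_exp.2 (by linarith : _ ≤ P + 2 - R / 4))
  have t2 := hT ι V G T M WW P Z (R / 4) e L' (Hb_pow hM h (by omega)) hV hL'
  have η0 : 0 ≤ ε * R := mul_nonneg ε0 (by linarith)
  have k := cmp (η := 40 * (ε * R)) a2 b2 (wt_nonneg G T e L) (wt_nonneg G T e L') hF
    (fun _ => ind_abs _) (fun _ => ind_abs _) (by linarith [(half z a3 a4).1])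
    (by linarith [(half z b3 b4).1]) (by linarith) (by linarith) (Real.exp_pos _).le (fun z => by
      have hin : L'.In z ↔ L.In z := by unfold Lw.In; rw [e1, e2, e3]
      have w0 := wt_nonneg G T e L z
      have w1 := wt_nonneg G T e L' z
      have w2 := mul_nonneg (mul_nonneg (by norm_num : (0 : ℝ) ≤ 40) η0) w0
      obtain ⟨b, q1, q2⟩ := q_add L (uj G T e z - L.c) (L.c - L'.c)
      rw [sub_add_sub_cancel] at q1
      obtain ⟨n1, n2⟩ := num (q_nonneg _ _) (q_nonneg _ _) (q_nonneg _ _) q1 q2 hc (hq _) ε0 hR hε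
      by_cases h1 : R ≤ L.q (uj G T e z - L.c)
      · rw [ind, ind, if_pos h1, if_pos (n2 h1), mul_one, mul_one]
        exact abs_le.2 ⟨by linarith only [w0, w1, w2], by linarith only [w0, w1, w2]⟩
      · refine le_trans ?_ ((le_add_of_nonneg_right (mul_nonneg w0 (ind01 _).1)).trans
          (le_add_of_nonneg_right (mul_nonneg w1 (ind01 _).1)))
        by_cases h2 : L.In z
        · rw [wt, wt, if_pos h2, if_pos (hin.2 h2)]
          exact ex (n1 (not_le.1 h1).le) hε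
        · rw [wt, wt, if_neg h2, if_neg fun h => h2 (hin.1 h)]
          simp) t1 t2
  refine k.trans ?_
  linarith only [η0]

end Vale.Agent.P057T.Pb
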