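import Vale.Agent.P057T.TowH52

/-! Two sided bounds for triangular Gaussian weights on a fine lattice. -/

open Matrix
open scoped Real
open Vale.Agent.P267.H775 Vale.Agent.P057T.Poi

namespace Vale.Agent.P057T.Pb.WideA

noncomputable section

set_option linter.unusedSectionVars false
set_option linter.unusedVariables false

theorem tower_low (S : ℕ) : ∀ (ι : Type) [Fintype ι] [DecidableEq ι] (st : ι → ℕ)
    (A : Matrix ι ι ℝ) (c : (ι → ℤ) → ι → ℝ) (m : ℝ), (∀ i, st i < S) →
    (∀ i j, st i ≠ st j → A i j = 0) → A.det ≠ 0 → Tri st c → (∀ x, m ≤ th A x) →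
    m ≤ ∑' z, gq A (toR z - c z) := by
  induction S with
  | zero =>
    intro ι _ _ st A c m hS _ hA _ hm
    have : IsEmpty ι := ⟨fun i => absurd (hS i) (Nat.not_lt_zero _)⟩
    have : (fun z : ι → ℤ => gq A (toR z - c z)) = fun z => gq A (0 + toR z) := by
      funext z
      congr 1
      exact Subsingleton.elim _ _
    rw [this]
    exact hm 0
  | succ S ih =>
    intro ι _ _ st A c m hS hb hA hc hm
    let p : ι → Prop := fun i => st i < S
    have hp : Sep p A := fun i j hij => hb i j fun h => hij (by simp only [p, h])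
    obtain ⟨h1, h2⟩ := det_blk_ne p hp hA
    have t1 : Tri (fun i : {i // p i} => st i) (fun a i => c (glue p a 0) i) :=
      fun a a' i h => hc _ _ _ fun j hj => by
        have hj' : p j := lt_trans hj i.2
        have := h ⟨j, hj'⟩ hj
        simp only [glue, dif_pos hj', this]
    have s1 := (tower_sum' (fun i : {i // p i} => st i) (A := blk p A)
      (fun i j hij => hb i j hij) h1 t1).1
    have hcc : ∀ a b i, c (glue p a b) i = c (glue p a 0) i := fun a b i =>
      hc _ _ _ fun j hj => by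
        have hj' : p j := lt_of_lt_of_le hj (Nat.le_of_lt_succ (hS i))
        simp only [glue, dif_pos hj']
    have he : ∀ a b, gq A (toR (glue p a b) - c (glue p a b)) =
        gq (blk p A) (toR a - fun i : {i // p i} => c (glue p a 0) i) *
          gq (blk (fun i => ¬ p i) A) ((fun i : {i // ¬ p i} => -c (glue p a 0) i) + toR b) := by
      intro a b
      rw [gq_blk p hp]
      congr 2
      · funext j
        simp [glue_pos, hcc a b]
      · funext j
        simp only [Pi.sub_apply, toR_apply, glue_neg, hcc a b, Pi.add_apply]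
        ring
    have hs := (tower_sum' st hb hA hc).1
    have bd : BddBelow (Set.range (th (blk (fun i => ¬ p i) A))) :=
      ⟨0, by rintro _ ⟨x, rfl⟩; exact (th_pos h2 x).le⟩
    set m2 := ⨅ x, th (blk (fun i => ¬ p i) A) x
    have m0 : 0 ≤ m2 := le_ciInf fun x => (th_pos h2 x).le
    have m1 : ∀ x, m ≤ th (blk p A) x * m2 := fun x => by
      rw [← div_le_iff₀' (th_pos h1 x)]
      refine le_ciInf fun y => ?_
      rw [div_le_iff₀' (th_pos h1 x)]
      have := hm (glue p x y)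
      rw [th_blk p hp hA] at this
      simpa only [glue_pos, glue_neg] using this
    have hle : ∀ a, gq (blk p A) (toR a - fun i : {i // p i} => c (glue p a 0) i) * m2 ≤
        ∑' b, gq A (toR (glue p a b) - c (glue p a b)) := by
      intro a
      simp only [he]
      rw [tsum_mul_left]
      exact mul_le_mul_of_nonneg_left (ciInf_le bd _) (gq_pos _ _).le
    have ho : Summable fun a => ∑' b, gq A (toR (glue p a b) - c (glue p a b)) :=
      summable_glue_out p (f := fun z => gq A (toR z - c z)) hs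
    rw [tsum_glue p hs]
    refine le_trans ?_ ((s1.mul_right m2).tsum_le_tsum hle ho)
    rw [tsum_mul_right]
    rcases m0.eq_or_lt with h0 | h0
    · have := m1 0
      rw [← h0] at this ⊢
      simpa using this
    · rw [← div_le_iff₀ h0]
      exact ih {i // p i} (fun i => st i) (blk p A) _ _ (fun i => i.2) (fun i j hij => hb i j hij) h1
        t1 fun x => (div_le_iff₀ h0).2 (m1 x)

variable {ι : Type} [Fintype ι] [DecidableEq ι]

/-- a triangular weight on a lattice without short dual vectors -/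
theorem two {st : ι → ℕ} {A : Matrix ι ι ℝ} {c : (ι → ℤ) → ι → ℝ} {K δ : ℝ}
    (hb : ∀ i j, st i ≠ st j → A i j = 0) (hA : A.det ≠ 0) (hc : Tri st c)
    (h : ∀ n : ι → ℤ, n ≠ 0 → K ≤ qf (A⁻¹)ᵀ (toR n))
    (hδ : Real.exp (-(3 / 4 * π * K)) * 2 ^ Fintype.card ι ≤ δ) (hδ2 : δ ≤ 1 / 2) :
    |∑' z, gq A (toR z - c z) - |A.det|⁻¹| ≤ 2 * δ * |A.det|⁻¹ := by
  have d0 := abs_pos.2 hA
  have h1 := th_sub_one_le (det_dual hA) h hδ hδ2
  have h2 : ∀ x, abs (|A.det| * th A x - 1) ≤ 2 * δ := fun x => (abs_th_sub hA x).trans h1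
  have h3 := (tower_sum' st hb hA hc).2
  have h4 := tower_low (Finset.univ.sup st + 1) ι st A c ((1 - 2 * δ) * |A.det|⁻¹)
    (fun i => Nat.lt_succ_of_le (Finset.le_sup (Finset.mem_univ i))) hb hA hc fun x => by
      rw [← div_eq_mul_inv, div_le_iff₀' d0]
      linarith [(abs_le.1 (h2 x)).1]
  have h5 : th A 0 ≤ (1 + 2 * δ) * |A.det|⁻¹ := by
    rw [← div_eq_mul_inv, le_div_iff₀' d0]
    linarith [(abs_le.1 (h2 0)).2]
  rw [abs_le]
  constructor <;> linarith

open Classical in
/-- sums over a class -/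
theorem cls {n : ℕ} (hn : 1 ≤ n) (r : ι → ℤ) (g : (ι → ℤ) → ℝ) :
    ∑' b : ι → ℤ, (if ∀ x, (n : ℤ) ∣ b x - r x then g b else 0) = ∑' h : ι → ℤ, g (r + (n : ℤ) • h) := by
  have n0 : (n : ℤ) ≠ 0 := by omega
  have hi : Function.Injective fun h : ι → ℤ => r + (n : ℤ) • h := fun h h' e =>
    smul_right_injective _ n0 (add_left_cancel e)
  rw [← hi.tsum_eq]
  · refine tsum_congr fun h => if_pos fun x => by simp
  · intro b hb
    have : ∀ x, (n : ℤ) ∣ b x - r x := by
      by_contra h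
      exact hb (if_neg h)
    choose h hh using this
    exact ⟨h, funext fun x => by simp [← hh x]⟩

/-- no short dual vectors -/
theorem far (p : ι → Prop) [DecidablePred p] {M : Matrix ι ι ℝ} (hp : Sep p M) (hM : M.det ≠ 0)
    {Um Vm : Matrix ι ι ℤ} (hU : Um * Vm = 1) {b K t : ℝ} (ht : 0 < t)
    (hb : ∀ i, p i → ∀ j, |∑ l, M i l * (Um l j : ℝ)| ≤ b)
    (hK : K * (Fintype.card ι * (t * b) ^ 2) ≤ 1) (k : {i // p i} → ℤ) (hk : k ≠ 0) :
    K ≤ qf ((t • blk p M)⁻¹)ᵀ (toR k) := by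
  have hd := det_smul_ne ht.ne' (det_blk_ne p hp hM).1
  obtain ⟨j, hj⟩ : ∃ j, (glue p k 0 ᵥ* Um) j ≠ 0 := by
    by_contra h
    push Not at h
    have : glue p k 0 = 0 := by
      rw [← vecMul_one (glue p k 0), ← hU, ← vecMul_vecMul, funext h]
      exact zero_vecMul _
    exact hk (funext fun i => by simpa [glue_pos] using congrFun this i)
  have h1 := dot_sq_le hd (toR k) fun i => (Um i j : ℝ)
  have h2 : ∑ i : {i // p i}, toR k i * (Um i j : ℝ) = ((glue p k 0 ᵥ* Um) j : ℤ) := by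
    simp only [vecMul, dotProduct]
    rw [← Fintype.sum_subtype_add_sum_subtype p]
    simp [glue_pos, glue_neg]
  have h3 : (1 : ℝ) ≤ (((glue p k 0 ᵥ* Um) j : ℤ) : ℝ) ^ 2 := by
    have := sq_pos_of_ne_zero hj
    exact_mod_cast (by omega : (1 : ℤ) ≤ ((glue p k 0 ᵥ* Um) j) ^ 2)
  have h4 : qf (t • blk p M) (fun i => (Um i j : ℝ)) ≤ Fintype.card ι * (t * b) ^ 2 := by
    rw [qf_smul, qf]
    have : ∑ i : {i // p i}, (blk p M *ᵥ fun i => (Um i j : ℝ)) i ^ 2 ≤ ∑ i : {i // p i}, b ^ 2 :=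
      Finset.sum_le_sum fun i _ => by
        rw [← mulVec_blk p hp fun l => (Um l j : ℝ)]
        exact sq_le_sq' (abs_le.1 (hb i i.2 j)).1 (abs_le.1 (hb i i.2 j)).2
    rw [Finset.sum_const, nsmul_eq_mul, Finset.card_univ] at this
    have c : (Fintype.card {i // p i} : ℝ) ≤ Fintype.card ι := by
      exact_mod_cast Fintype.card_subtype_le _
    have := mul_le_mul_of_nonneg_left (this.trans (mul_le_mul_of_nonneg_right c (sq_nonneg b)))
      (sq_nonneg t)
    linarith
  rw [h2] at h1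
  by_contra hc
  push Not at hc
  have q0 := qf_nonneg ((t • blk p M)⁻¹)ᵀ (toR k)
  have h5 := h3.trans (h1.trans (mul_le_mul_of_nonneg_left h4 q0))
  have h6 : 0 < Fintype.card ι * (t * b) ^ 2 := by
    by_contra h
    push Not at h
    nlinarith [mul_nonneg q0 (neg_nonneg.2 h)]
  nlinarith [mul_lt_mul_of_pos_right hc h6]

/-- comparison of two normalised sums -/
theorem rat {α : Type} {Φ w F : α → ℝ} {V δ : ℝ} (sw : Summable w) (sΦ : Summable Φ)
    (w0 : ∀ a, 0 ≤ w a) (wp : 0 < ∑' a, w a) (V0 : 0 < V) (δ0 : 0 ≤ δ) (δ1 : δ ≤ 1 / 2)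
    (h : ∀ a, |Φ a - V * w a| ≤ δ * (V * w a)) (hF : ∀ a, |F a| ≤ 1) :
    |(∑' a, Φ a * F a) / (∑' a, Φ a) - (∑' a, w a * F a) / ∑' a, w a| ≤ 4 * δ := by
  have sm : ∀ {f : α → ℝ}, Summable f → Summable fun a => f a * F a := fun {f} hf =>
    Summable.of_norm_bounded hf.abs fun a => by
      rw [Real.norm_eq_abs, abs_mul]
      exact mul_le_of_le_one_right (abs_nonneg _) (hF a)
  have sb := ((sw.mul_left V).mul_left δ).hasSum
  rw [tsum_mul_left, tsum_mul_left] at sb
  have h1 : |∑' a, Φ a - V * ∑' a, w a| ≤ δ * (V * ∑' a, w a) := by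
    have := tsum_of_norm_bounded (f := fun a => Φ a - V * w a) sb h
    rwa [sΦ.tsum_sub (sw.mul_left V), tsum_mul_left] at this
  have h2 : |∑' a, Φ a * F a - V * ∑' a, w a * F a| ≤ δ * (V * ∑' a, w a) := by
    have := tsum_of_norm_bounded (f := fun a => Φ a * F a - V * (w a * F a)) sb fun a => by
      rw [Real.norm_eq_abs, ← mul_assoc, ← sub_mul, abs_mul]
      exact (mul_le_of_le_one_right (abs_nonneg _) (hF a)).trans (h a)
    rwa [(sm sΦ).tsum_sub ((sm sw).mul_left V), tsum_mul_left] at this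
  have h3 : |∑' a, w a * F a| ≤ ∑' a, w a :=
      tsum_of_norm_bounded (f := fun a => w a * F a) sw.hasSum fun a => by
    rw [Real.norm_eq_abs, abs_mul, abs_of_nonneg (w0 a)]
    exact mul_le_of_le_one_right (w0 a) (hF a)
  generalize ∑' a, Φ a * F a = X at *
  generalize ∑' a, Φ a = Y at *
  generalize ∑' a, w a * F a = X' at *
  generalize ∑' a, w a = Y' at *
  have p0 := mul_pos V0 wp
  have y1 : V * Y' / 2 ≤ Y := by nlinarith [(abs_le.1 h1).1]
  have y0 : 0 < Y := by linarith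
  have e : X / Y - X' / Y' = ((X - V * X') - X' / Y' * (Y - V * Y')) / Y := by
    field_simp
    ring
  have q : |X' / Y'| ≤ 1 := by
    rw [abs_div, abs_of_pos wp, div_le_one wp]
    exact h3
  rw [e, abs_div, abs_of_pos y0, div_le_iff₀ y0]
  refine (abs_sub _ _).trans ?_
  rw [abs_mul]
  have := mul_le_mul q h1 (abs_nonneg _) zero_le_one
  nlinarith [mul_le_mul_of_nonneg_left y1 δ0]

open Classical in
/-- the coordinates outside `p` are free -/
theorem free (p : ι → Prop) [DecidablePred p] {st : ι → ℕ} {M : Matrix ι ι ℝ}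
    {c : (ι → ℤ) → ι → ℝ} {n : ℕ} {r : ι → ℤ} {Um Vm : Matrix ι ι ℤ} {b K δ : ℝ}
    (hb : ∀ i j, st i ≠ st j → M i j = 0) (hM : M.det ≠ 0) (hc : Tri st c) (hp : Sep p M)
    (hq : ∀ a b (i : {i // p i}), c (glue p a b) i = c (glue p a 0) i) (hn : 1 ≤ n)
    (hU : Um * Vm = 1) (hB : ∀ i, ¬ p i → ∀ j, |∑ l, M i l * (Um l j : ℝ)| ≤ b)
    (hK : K * (Fintype.card ι * (n * b) ^ 2) ≤ 1)
    (hδ : Real.exp (-(3 / 4 * π * K)) * 2 ^ Fintype.card ι ≤ δ) (hδ2 : δ ≤ 1 / 4)
    (F : ({i // p i} → ℤ) → ℝ) (hF : ∀ a, |F a| ≤ 1) (w : (ι → ℤ) → ℝ) (w' : ({i // p i} → ℤ) → ℝ)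
    (hw : ∀ z, w z = if ∀ x, (n : ℤ) ∣ z x - r x then gq M (toR z - c z) else 0)
    (hw' : ∀ a, w' a = if ∀ x : {i // p i}, (n : ℤ) ∣ a x - r x then
      gq (blk p M) (toR a - fun i : {i // p i} => c (glue p a 0) i) else 0) :
    |(∑' z, w z * F fun i => z i) / (∑' z, w z) - (∑' a, w' a * F a) / ∑' a, w' a| ≤ 8 * δ := by
  obtain ⟨h1, h2⟩ := det_blk_ne p hp hM
  have n0 : (0 : ℝ) < n := by exact_mod_cast hn
  have δ0 : 0 ≤ δ := le_trans (by positivity) hδ
  have w0 : ∀ z, 0 ≤ w z := fun z => by rw [hw]; split_ifs; exacts [(gq_pos _ _).le, le_rfl]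
  have w0' : ∀ z, 0 ≤ w' z := fun z => by rw [hw']; split_ifs; exacts [(gq_pos _ _).le, le_rfl]
  have sw : Summable w := Summable.of_nonneg_of_le w0
    (fun z => by rw [hw]; split_ifs; exacts [le_rfl, (gq_pos _ _).le]) (tower_sum' st hb hM hc).1
  have sw' : Summable w' := Summable.of_nonneg_of_le w0'
    (fun z => by rw [hw']; split_ifs; exacts [le_rfl, (gq_pos _ _).le])
    (tower_sum' (fun i : {i // p i} => st i) (A := blk p M) (fun i j hij => hb i j hij) h1
      (c := fun a i => c (glue p a 0) i) fun a a' i h => hc _ _ _ fun j hj => by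
        by_cases hj' : p j
        · simp only [glue, dif_pos hj', h ⟨j, hj'⟩ hj]
        · simp only [glue, dif_neg hj']).1
  have wp : 0 < ∑' a, w' a := sw'.tsum_pos w0' (fun i => r i) (by
    rw [hw', if_pos fun x => by simp]; exact gq_pos _ _)
  have sF : Summable fun z : ι → ℤ => w z * F fun i => z i :=
    Summable.of_norm_bounded sw fun z => by
      rw [Real.norm_eq_abs, abs_mul, abs_of_nonneg (w0 z)]
      exact mul_le_of_le_one_right (w0 z) (hF _)
  have hd := det_smul_ne n0.ne' h2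
  rw [tsum_glue p sF, tsum_glue p sw]
  simp only [glue_pos, tsum_mul_right]
  refine (rat (δ := 2 * δ) (V := |((n : ℝ) • blk (fun i => ¬ p i) M).det|⁻¹) sw'
    (summable_glue_out p sw) w0' wp (inv_pos.2 (abs_pos.2 hd)) (by linarith) (by linarith)
    (fun a => ?_) hF).trans (by linarith)
  have e : ∀ b, w (glue p a b) = w' a * if ∀ x : {i // ¬ p i}, (n : ℤ) ∣ b x - r x then
      gq (blk (fun i => ¬ p i) M) (toR b - fun i : {i // ¬ p i} => c (glue p a b) i) else 0 := by
    intro b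
    have i1 : (∀ x, (n : ℤ) ∣ glue p a b x - r x) ↔ (∀ x : {i // p i}, (n : ℤ) ∣ a x - r x) ∧
        ∀ x : {i // ¬ p i}, (n : ℤ) ∣ b x - r x := by
      refine ⟨fun h => ⟨fun x => by simpa [glue_pos] using h x,
        fun x => by simpa [glue_neg] using h x⟩, fun h x => ?_⟩
      by_cases hx : p x
      · simpa only [glue, dif_pos hx] using h.1 ⟨x, hx⟩
      · simpa only [glue, dif_neg hx] using h.2 ⟨x, hx⟩
    rw [hw, hw', ite_zero_mul_ite_zero, gq_blk p hp]
    refine if_congr i1 ?_ rfl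
    congr 2
    · funext j
      simp [glue_pos, hq a b]
    · funext j
      simp [glue_neg]
  simp only [e, tsum_mul_left]
  have cl := cls hn (fun i : {i // ¬ p i} => r i)
    fun b => gq (blk (fun i => ¬ p i) M) (toR b - fun i : {i // ¬ p i} => c (glue p a b) i)
  have tw := two (st := fun i : {i // ¬ p i} => st i) (A := (n : ℝ) • blk (fun i => ¬ p i) M)
    (c := fun h i => (c (glue p a ((fun i : {i // ¬ p i} => r i) + (n : ℤ) • h)) i - r i) / n)
    (K := K) (δ := δ) (fun i j hij => by simp [blk, hb i j hij]) hd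
    (fun h h' i hh => by
      have : c (glue p a ((fun i : {i // ¬ p i} => r i) + (n : ℤ) • h)) i =
          c (glue p a ((fun i : {i // ¬ p i} => r i) + (n : ℤ) • h')) i := hc _ _ _ fun j hj => by
        by_cases hj' : p j
        · simp only [glue, dif_pos hj']
        · simp only [glue, dif_neg hj', Pi.add_apply, Pi.smul_apply, hh ⟨j, hj'⟩ hj]
      simp only [this])
    (far (fun i => ¬ p i) hp.neg hM hU n0 hB hK)
    (le_trans (mul_le_mul_of_nonneg_left (pow_le_pow_right₀ (by norm_num)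
      (Fintype.card_subtype_le _)) (Real.exp_pos _).le) hδ) (by linarith)
  have e2 : ∀ h : {i // ¬ p i} → ℤ, gq ((n : ℝ) • blk (fun i => ¬ p i) M) (toR h - fun i : {i // ¬ p i} =>
      (c (glue p a ((fun i : {i // ¬ p i} => r i) + (n : ℤ) • h)) i - r i) / n) =
      gq (blk (fun i => ¬ p i) M) (toR ((fun i : {i // ¬ p i} => r i) + (n : ℤ) • h) -
        fun i : {i // ¬ p i} => c (glue p a ((fun i : {i // ¬ p i} => r i) + (n : ℤ) • h)) i) := by
    intro h
    unfold gq
    rw [qf_smul, ← qf_smul_vec]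
    congr 3
    funext i
    simp only [Pi.smul_apply, Pi.sub_apply, toR_apply, Pi.add_apply, smul_eq_mul]
    push_cast
    field_simp
    ring
  simp only [e2] at tw
  rw [← cl] at tw
  have := mul_le_mul_of_nonneg_left tw (w0' a)
  rw [← abs_of_nonneg (w0' a), ← abs_mul, abs_of_nonneg (w0' a), mul_sub] at this
  rw [mul_comm _ (w' a)]
  refine le_trans (le_of_eq ?_) (this.trans (le_of_eq (by ring)))
  congr

end

end Vale.Agent.P057T.Pb.WideA
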