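import Vale.Agent.P057T.Pb.Defs
import Vale.Agent.P057T.Pb.WideA
import Vale.Agent.P057T.Eq.Summ
import Vale.Agent.P057T.Cfg.Jok
import Vale.Agent.P057T.Cfg.CountH98

/-! Wide coordinates are free. -/

open MvPolynomial Finset Matrix
open scoped Real
open Vale.Agent.P267.H775 Vale.Agent.P057T.Poi

namespace Vale.Agent.P057T.Pb

open Vale.Agent.P057T.Eq Vale.Agent.P057T.Cfg

noncomputable section

set_option linter.unusedSectionVars false
set_option linter.unusedVariables false

namespace WideA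

theorem num {P Z n d : ℝ} (P2 : 2 ≤ P) (PZ : P ≤ Z) (n0 : 0 ≤ n) (hn : n ≤ Real.exp Z) (k : ℕ)
    (hk : (k : ℝ) ≤ P) :
    Real.exp (9 * Z) * (k * (n * (Real.exp (-(P ^ 3 * Z)) * Real.exp Z)) ^ 2) ≤ 1 ∧
    8 * (Real.exp (-(3 / 4 * π * Real.exp (9 * Z))) * 2 ^ k) ≤ Real.exp (-Z) ∧
    Real.exp (-Z) ≤ 1 := by
  have p3 : 8 ≤ P ^ 3 := le_trans (by norm_num) (pow_le_pow_left₀ (by norm_num) P2 3)
  have kZ : (k : ℝ) ≤ Real.exp Z := by linarith [Real.add_one_le_exp Z]
  refine ⟨?_, ?_, Real.exp_le_one_iff.2 (by linarith)⟩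
  · calc _ ≤ Real.exp (9 * Z) * (Real.exp Z * (Real.exp Z * (Real.exp (-(8 * Z)) * Real.exp Z)) ^ 2) := by
          gcongr
          linarith
      _ = Real.exp (-(2 * Z)) := by
          rw [← Real.exp_add, ← Real.exp_add, sq, ← Real.exp_add, ← Real.exp_add, ← Real.exp_add]
          congr 1
          ring
      _ ≤ 1 := Real.exp_le_one_iff.2 (by linarith)
  · have h2 : (2 : ℝ) ≤ Real.exp 1 := by linarith [Real.add_one_le_exp (1 : ℝ)]
    have h3 : (2 : ℝ) ^ k ≤ Real.exp Z := by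
      refine (pow_le_pow_left₀ (by norm_num) h2 k).trans ?_
      rw [← Real.exp_nat_mul]
      exact Real.exp_le_exp.2 (by linarith)
    have h4 : (8 : ℝ) ≤ Real.exp 7 := by linarith [Real.add_one_le_exp (7 : ℝ)]
    have h5 := Real.add_one_le_exp (9 * Z)
    calc _ ≤ Real.exp 7 * (Real.exp (-(3 / 4 * π * Real.exp (9 * Z))) * Real.exp Z) := by gcongr
      _ ≤ _ := by
          rw [← Real.exp_add, ← Real.exp_add]
          refine Real.exp_le_exp.2 ?_
          nlinarith [Real.pi_gt_three]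

theorem sup0 {ι : Type} [Fintype ι] [DecidableEq ι] (p : ι → Prop) [DecidablePred p]
    (f : (ι → ℤ) → ℝ) (h : ∀ z, f z ≠ 0 → ∀ x, ¬ p x → z x = 0) :
    ∑' z, f z = ∑' a, f (glue p a 0) := by
  have hi : Function.Injective fun a : {i // p i} → ℤ => glue p a 0 := fun a a' e =>
    funext fun i => by simpa only [glue_pos] using congrFun e i
  refine (hi.tsum_eq fun z hz => ⟨fun i => z i, funext fun x => ?_⟩).symm
  by_cases hx : p x
  · simp only [glue, dif_pos hx]
  · simp only [glue, dif_neg hx, h z hz x hx, Pi.zero_apply]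

end WideA

open WideA Br in
theorem wide : WIDE := by
  classical
  refine fun s => ⟨3, fun ι V _ _ _ _ G T M WW P Z Z0 e L U F h hV hL hU hL' PZ _ hW hn hN hF => ?_⟩
  obtain ⟨j1, -, j3, j4⟩ := jok s ι V G (fun _ => 1) h.ok fun _ => one_pos
  have aU : ∀ W : Finset (JI G.w V), (∀ x ∈ W, ∀ y : JI G.w V, y.1.2 ≤ x.1.2 → y ∈ W) →
      (jet G V fun _ => 1).AOk (jat G T e (fun _ => 1) W) P := fun W hW => by
    have := j4 T P e (fun ν => ∀ y : JI G.w V, y.1.2 ≤ ν → y ∈ W) h.ao h.un
      fun ν ν' a b y c => a y (c.trans b)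
    rwa [show UD G.w (fun ν => ∀ y : JI G.w V, y.1.2 ≤ ν → y ∈ W) = W from
      Finset.ext fun x => by
        simp only [UD, mem_filter, mem_univ, true_and]
        exact ⟨fun a => a x le_rfl, fun a => hW x a⟩] at this
  have a1 := aU univ fun _ _ _ _ => mem_univ _
  have a2 := aU U hL'.cl
  obtain ⟨Um, Vm, u1, -, u2⟩ := (j3 WW 0 h.wd le_rfl fun _ => by simp).bd
  obtain ⟨N', r1, -, r2⟩ := hL'.inv
  have cd : (Fintype.card (JI G.w V) : ℝ) ≤ P :=
    le_trans (by exact_mod_cast H98.card_JI h.ok.ws hV) h.cd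
  obtain ⟨n1, n2, n3⟩ := num (d := 0) h.P2 PZ (Nat.cast_nonneg _) hn _ cd
  have hu : uj G T e = fun z x => eval (cz z) ((jet G V fun _ => 1).ch (jat G T e (fun _ => 1) univ) x) :=
    rfl
  have ap : ∀ x, (jat G T e (fun _ => 1) U).p x = (jat G T e (fun _ => 1) univ).p x := fun _ => rfl
  have aU' : (jat G T e (fun _ => 1) U).U = U := rfl
  have aV : (jat G T e (fun _ => 1) univ).U = univ := rfl
  have gJ : ∀ x, WW ((jet G V fun _ => 1).g x) ≤ Z0 := fun x => (h.wd.anti (Nat.zero_le _)).trans hW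
  unfold Ev wt
  rw [hu]
  generalize jat G T e (fun _ => 1) U = TU at *
  generalize jat G T e (fun _ => 1) univ = TJ at *
  generalize (jet G V fun _ => 1) = J at *
  have key : ∀ z : JI G.w V → ℤ, L.N *ᵥ ((fun x => eval (cz z) (J.ch TJ x)) - L.c) =
      (L.N * J.A) *ᵥ (toR z - fun b => eval (cz z) (J.cq TJ b) + (J.B *ᵥ L.c) b) := by
    intro z
    rw [← mulVec_mulVec]
    congr 1
    have : (toR z - fun b => eval (cz z) (J.cq TJ b) + (J.B *ᵥ L.c) b) =
        (fun b => cz z b - eval (cz z) (J.cq TJ b)) - J.B *ᵥ L.c := by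
      funext b
      simp only [Pi.sub_apply, toR_apply, cz]
      ring
    rw [this, mulVec_sub, mulVec_mulVec, j1.AB, one_mulVec]
    congr 1
    funext x
    exact ch_eval j1 TJ _ x
  have nz : ∀ i j, (L.N * J.A) i j ≠ 0 → ∃ l, L.N i l ≠ 0 ∧ J.A l j ≠ 0 := fun i j hij => by
    obtain ⟨l, -, hl⟩ := exists_ne_zero_of_sum_ne_zero hij
    exact ⟨l, mul_ne_zero_iff.1 hl⟩
  have sp : Sep (· ∈ U) (L.N * J.A) := fun i j hij => by
    by_contra hc
    obtain ⟨l, b1, b2⟩ := nz i j hc
    exact hij ((r2 i l (Or.inl b1)).trans (aU' ▸ a2.bk l j (Or.inl b2)))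
  have fr := free (· ∈ U) (st := stg J s) (M := L.N * J.A)
    (c := fun z b => eval (cz z) (J.cq TJ b) + (J.B *ᵥ L.c) b) (n := L.n) (r := L.r) (Um := Um)
    (Vm := Vm) (b := Real.exp (-(P ^ 3 * Z0)) * Real.exp Z0) (K := Real.exp (9 * Z0))
    (fun i j hij => by
      by_contra hc
      obtain ⟨l, b1, b2⟩ := nz i j hc
      obtain ⟨e1, e2⟩ := r1.blk i l (Or.inl b1)
      obtain ⟨e3, e4⟩ := j1.blk l j (Or.inl b2)
      exact hij (by simp only [stg, e1, e2, e3, e4]))
    (by
      rw [det_mul]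
      exact mul_ne_zero (det_ne_zero_of_right_inverse r1.inv) (det_ne_zero_of_right_inverse j1.AB))
    (fun z z' i hh => by
      simp only
      congr 1
      exact cq_tri j1 a1 (aV ▸ mem_univ _) fun c hc => by simp only [cz, hh c hc])
    sp
    (fun a b i => by
      have : ∀ c ∈ TU.U, cz (glue (· ∈ U) a b) c = cz (glue (· ∈ U) a 0) c := fun c hc => by
        rw [aU'] at hc
        simp only [cz, glue, dif_pos hc]
      congr 1
      have iU : i.1 ∈ TU.U := aU' ▸ i.2
      exact cq_congr TJ i (fun c hc => this c (a2.qv i iU hc)) fun x hx c hc =>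
        this c (a2.pv x ((a2.bk i x (Or.inr hx)).1 iU) (ap x ▸ hc)))
    hL.n1 u1
    (fun i hi j => by
      have : ∑ l, (L.N * J.A) i l * (Um l j : ℝ) = ∑ y, L.N i y * ∑ l, J.A y l * (Um l j : ℝ) := by
        simp only [Matrix.mul_apply, sum_mul, mul_sum, mul_assoc]
        exact sum_comm
      rw [this]
      refine (abs_sum_le_sum_abs _ _).trans (le_trans (sum_le_sum fun y _ => ?_)
        ((sum_mul _ _ _).symm.le.trans (mul_le_mul_of_nonneg_right (hN i hi) (Real.exp_pos _).le)))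
      rw [abs_mul]
      exact mul_le_mul_of_nonneg_left ((u2 y j).trans (Real.exp_le_exp.2 (by linarith [gJ y])))
        (abs_nonneg _))
    n1 le_rfl (by linarith) (fun a => F (glue (· ∈ U) a 0)) (fun _ => hF _)
    (fun z => if L.In z then Real.exp (-π * L.q ((fun x => eval (cz z) (J.ch TJ x)) - L.c)) else 0)
    (fun a => if Lw.In { L with U := U } (glue (· ∈ U) a 0) then
      Real.exp (-π * Lw.q { L with U := U }
        ((fun x => eval (cz (glue (· ∈ U) a 0)) (J.ch TJ x)) - L.c)) else 0)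
    (fun z => by
      refine if_congr (by simp [Lw.In, hU]) ?_ rfl
      simp only [Lw.q, hU, key, gq, P267.H775.qf])
    (fun a => by
      refine @if_congr _ _ _ _ (_) _ _ _ _ ⟨fun hh x => by simpa only [glue_pos] using (hh x).1 x.2,
        fun hh x => ⟨fun hx => by simpa only [glue, dif_pos (show x ∈ U from hx)] using hh ⟨x, hx⟩,
          fun hx => by simp only [glue, dif_neg (show ¬ x ∈ U from hx), Pi.zero_apply]⟩⟩ ?_ rfl
      simp only [Lw.q, key, gq, P267.H775.qf]
      rw [sum_subtype U (p := (· ∈ U)) (fun _ => Iff.rfl)]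
      congr 2
      refine sum_congr rfl fun i _ => ?_
      rw [mulVec_blk (· ∈ U) sp]
      congr 2
      funext j
      simp [glue_pos])
  rw [sup0 (· ∈ U) (fun z => (if Lw.In { L with U := U } z then _ else 0) * F z)
      fun z hz x hx => ((by_contra fun hc => hz (by rw [if_neg hc, zero_mul]) :
        Lw.In { L with U := U } z) x).2 hx,
    sup0 (· ∈ U) (fun z => if Lw.In { L with U := U } z then _ else 0)
      fun z hz x hx => ((by_contra fun hc => hz (if_neg hc) : Lw.In { L with U := U } z) x).2 hx]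
  have rs : ∀ z : JI G.w V → ℤ, Cp.res U z = glue (· ∈ U) (fun i => z i) 0 := fun z =>
    funext fun x => by
      by_cases hx : x ∈ U
      · simp only [Cp.res, glue, if_pos hx, dif_pos hx]
      · simp only [Cp.res, glue, if_neg hx, dif_neg hx, Pi.zero_apply]
  simp only [rs]
  exact fr.trans n2

end

end Vale.Agent.P057T.Pb
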